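import Vale.Agent.P011N.Cl.MV.A

/-!
The change of the grading.
-/

namespace Vale.Agent.P011N.Cl.MV

open Vale.Agent.P011.MPQ Vale.Agent.P011.D4 Vale.Agent.P011.D4.Oct Vale.Agent.P011.E6 Equiv Matrix
open Vale.Agent.P011.E6O Vale.Agent.P011.E6.Alb

variable {F : Type} [Field F] [CharZero F]

/-- The elements of degree `2`, as a linear map. -/
def pPL : (Fin 3 → F) →ₗ[F] J1 F where
  toFun := pP
  map_add' x y := by simp [pP, mkT_add, vecMulVec_add]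
  map_smul' t x := by simp [pP, mkT_smul, vecMulVec_smul]

/-- The elements of degree `-2`, as a linear map. -/
def pQL : (Fin 3 → F) →ₗ[F] J1 F where
  toFun := pQ
  map_add' x y := by simp [pQ, mkT_add, add_vecMulVec]
  map_smul' t x := by simp [pQ, mkT_smul, smul_vecMulVec]

theorem pP_sum (β : Fin 3 → F) : pP β = ∑ i, β i • pP (Pi.single i 1) := by
  have h := congrArg pPL (pi_eq_sum_univ' β)
  simp only [map_sum, map_smul] at h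
  exact h

theorem pQ_sum (β : Fin 3 → F) : pQ β = ∑ i, β i • pQ (Pi.single i 1) := by
  have h := congrArg pQL (pi_eq_sum_univ' β)
  simp only [map_sum, map_smul] at h
  exact h

theorem cross_pP (β β' : Fin 3 → F) : cross (pP β) (pP β') = 0 := by
  rw [pP, pP, cross_mkT, mx_eq (vecMulVec _ β), mkT_eq_zero]
  refine ⟨by simp, by simp, ?_⟩
  ext i j
  fin_cases i <;> fin_cases j <;> simp [vecMulVec_apply]

theorem cross_pQ (β β' : Fin 3 → F) : cross (pQ β) (pQ β') = 0 := by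
  rw [pQ, pQ, cross_mkT, mx_eq (vecMulVec β _), mkT_eq_zero]
  refine ⟨?_, by simp, by simp⟩
  ext i j
  fin_cases i <;> fin_cases j <;> simp [vecMulVec_apply]

theorem tf_pP_pQ (β z : Fin 3 → F) : tf (pP β) (pQ z) = β ⬝ᵥ z := by
  simp [pP, pQ, tf_mkT, vecMulVec_mul_vecMulVec]

theorem sl1_hz_pP (β : Fin 3 → F) : sl1 hz (pP β) = (2 : F) • pP β := by
  rw [pP, sl1_mkT, mkT_smul, mul_vecMulVec, diagonal_mulVec_single, mkT_inj]
  refine ⟨?_, by simp, by simp⟩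
  ext i j
  fin_cases i <;> simp [vecMulVec_apply]

theorem eq_pP {x : J1 F} (h : sl1 hz x = (2 : F) • x) : ∃ β, x = pP β := by
  obtain ⟨X, Y, Z, rfl⟩ := exists_mkT x
  rw [sl1_mkT, mkT_smul, mkT_inj] at h
  obtain ⟨h1, h2, h3⟩ := h
  refine ⟨X 0, mkT_inj.2 ⟨?_, ?_, ?_⟩⟩
  · ext i j
    have k := congrFun (congrFun h1 i) j
    rw [diagonal_mul] at k
    fin_cases i
    · simp [vecMulVec_apply]
    · simp [vecMulVec_apply] at k ⊢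
      linear_combination (-1 / 3 : F) * k
    · simp [vecMulVec_apply] at k ⊢
      linear_combination (-1 / 3 : F) * k
  · exact (smul_eq_zero.1 h2.symm).resolve_left two_ne_zero
  · ext i j
    have k := congrFun (congrFun h3 i) j
    rw [Matrix.neg_apply, mul_diagonal] at k
    fin_cases j <;> simp at k ⊢
    · linear_combination (-1 / 4 : F) * k
    · linear_combination (-1 : F) * k
    · linear_combination (-1 : F) * k

variable {γ γ' : Gl F} {κ κ' ε : Bool} {ν₁ ν₂ l : F} {φ : Perm (W1 F)}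

theorem sim_inj (h : Sim6 γ ε ν₁ ν₂ l φ) (x : J1 F) : ∃ y, φ (x, 0) = inj ε y := by
  cases ε
  exacts [⟨_, h.inl x⟩, ⟨_, h.inl_true x⟩]

theorem cm_pP (h : Sim6 γ ε ν₁ ν₂ l φ) (hc : Cm false φ) (β : Fin 3 → F) :
    ∃ β', φ (pP β, 0) = inj ε (pP β') := by
  obtain ⟨y, hy⟩ := sim_inj h (pP β)
  have k := hc (pP β, 0)
  rw [slA_eq, sl1_hz_pP, map_zero, show (((2 : F) • pP β, 0) : W1 F) = (2 : F) • (pP β, 0) by simp,
    h.semi.smul, hy, slA_inj, map_ofNat] at k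
  obtain ⟨β', rfl⟩ := eq_pP (x := y) (by cases ε <;> simpa [inj] using k.symm)
  exact ⟨β', hy⟩

theorem cm_mul {φ' : Perm (W1 F)} (hs : Semi γ φ) (h : Cm κ φ) (h' : Cm κ' φ') :
    Cm (xor κ κ') ⇑(φ * φ') := fun v => by
  rw [Perm.mul_apply, h', hs.smul, h, Perm.mul_apply, smul_smul]
  cases κ <;> cases κ' <;> simp

theorem ann_P (hGR : GRStmt) (h : Sim6 γ false ν₁ ν₂ l φ)
    (hk : ∀ β, ∃ β', φ (pP β', 0) = (pP β, 0)) (ζ : Fin 3 → F) :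
    ∃ ζ', φ (0, pP ζ) = (0, pP ζ') := by
  obtain ⟨ζ', h1⟩ := ((hGR F).2.1 (sn6 φ false (pP ζ))).1 fun β v => by
    obtain ⟨β', h2⟩ := hk β
    obtain ⟨v, rfl⟩ := φ.surjective v
    have h3 : fs6 φ false (pP β') = pP β := congrArg Prod.fst h2
    rw [← h3, h.Vop_false, ((hGR F).2.1 _).2 ⟨ζ, rfl⟩, h.semi.zero, smul_zero]
  exact ⟨ζ', by rw [h.inr, h1]⟩

theorem ann_Q (hGR : GRStmt) (h : Sim6 γ true ν₁ ν₂ l φ)
    (hk : ∀ z, ∃ β, φ (pP β, 0) = (0, pQ z)) (ζ : Fin 3 → F) :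
    ∃ ζ', φ (0, pP ζ) = (pQ ζ', 0) := by
  obtain ⟨ζ', h1⟩ := ((hGR F).2.2 (fs6 φ true (pP ζ))).1 fun z v => by
    obtain ⟨β', h2⟩ := hk z
    obtain ⟨v, rfl⟩ := φ.surjective v
    have h3 : sn6 φ true (pP β') = pQ z := congrArg Prod.snd h2
    rw [← h3, h.Vop_true, ((hGR F).2.1 _).2 ⟨ζ, rfl⟩, h.semi.zero, smul_zero]
  exact ⟨ζ', by rw [h.inr_true, h1]⟩

variable {Γ Γ' : Subgroup (Gl F)} {Φ : Subgroup (Perm (W1 F))} {d : F} {φ₀ : Perm (W1 F)}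
  {γ₀ : Gl F}

theorem inv_neg {γ : Gl F} (h : γ d = -d) : γ⁻¹ d = -d := by
  apply γ.injective
  rw [map_neg, h, neg_neg]
  exact γ.apply_symm_apply d

/-- A criterion for the grading to be defined over the ground field, up to a sign. -/
theorem grOn_of (hGR : GRStmt) (hΦ : Dat6 Γ Φ) (h0 : φ₀ ∈ Φ) (hγ : γ₀ ∈ Γ') (hd : γ₀ d = -d)
    (hs : Sim6 γ₀ true ν₁ ν₂ l φ₀) (h1 : ∀ z, ∃ β, φ₀ (pP β, 0) = (0, pQ z))
    (h2 : ∀ β, ∃ z, φ₀ (pP β, 0) = (0, pQ z))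
    (h3 : ∀ φ ∈ Φ, ∀ γ ∈ Γ', γ d = d → ∀ ε ν₁ ν₂ l, Sim6 γ ε ν₁ ν₂ l φ →
      ∀ β, ∃ β', φ (pP β, 0) = inj ε (pP β')) :
    GrOn Φ (fun γ => γ ∈ Γ' ∧ γ d = d) false ∧ GrOn Φ (fun γ => γ ∈ Γ' ∧ γ d = -d) true := by
  have k1 : GrOn Φ (fun γ => γ ∈ Γ' ∧ γ d = d) false := by
    rintro φ hφ γ k1 ⟨k2, k3⟩
    obtain ⟨ε, _, _, _, k4⟩ := hΦ.sim_of hφ k1
    refine ((hGR F).1 φ γ ε _ _ _ k4).1 (h3 φ hφ γ k2 k3 ε _ _ _ k4) fun z => ?_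
    obtain ⟨β, k5⟩ := h1 z
    obtain ⟨β', k6⟩ := h3 (φ₀⁻¹ * φ * φ₀) (mul_mem (mul_mem (inv_mem h0) hφ) h0) (γ₀⁻¹ * γ * γ₀)
      (mul_mem (mul_mem (inv_mem hγ) k2) hγ)
      (by rw [AlgEquiv.mul_apply, AlgEquiv.mul_apply, hd, map_neg, k3, map_neg, inv_neg hd, neg_neg])
      ε _ _ _ (((hs.symm.comp k4).comp hs).cast rfl (by simp) rfl rfl rfl) β
    rw [Perm.mul_apply, Perm.mul_apply, Perm.inv_eq_iff_eq, k5] at k6
    rw [k6]
    cases ε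
    exacts [h2 β', ann_Q hGR hs h1 β']
  have k2 : Cm true φ₀ := by
    refine ((hGR F).1 φ₀ γ₀ true _ _ _ hs).2 h2 fun z => ?_
    obtain ⟨β, k5⟩ := h1 z
    rw [← k5]
    exact h3 (φ₀ * φ₀) (mul_mem h0 h0) (γ₀ * γ₀) (mul_mem hγ hγ)
      (by rw [AlgEquiv.mul_apply, hd, map_neg, hd, neg_neg]) _ _ _ _ (hs.comp hs) β
  refine ⟨k1, ?_⟩
  rintro φ hφ γ k3 ⟨k4, k5⟩
  have k6 := cm_mul hs.semi k2 (k1 (φ₀⁻¹ * φ) (mul_mem (inv_mem h0) hφ) _ (hs.semi.inv.mul k3)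
    ⟨mul_mem (inv_mem hγ) k4, by rw [AlgEquiv.mul_apply, k5, map_neg, inv_neg hd, neg_neg]⟩)
  rwa [mul_inv_cancel_left] at k6

theorem semi_pair {φ : W1 F → W1 F} (h : Semi γ φ) (β : Fin 3 → F) (x : Fin 3 → J1 F) :
    φ (∑ i, β i • x i, 0) = ∑ i, γ (β i) • φ (x i, 0) ∧
      φ (0, ∑ i, β i • x i) = ∑ i, γ (β i) • φ (0, x i) := by
  simp only [← h.smul, ← h.sum, Prod.smul_mk, smul_zero, ← prod_mk_sum, Finset.sum_const_zero,
    and_self]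

/-- The opposite space is moved to the standard one. -/
theorem exists_opp {g : Perm (W1 F)} (hg : g ∈ S6 (1 : Fˣ) 1 1) (hs : Sim6 γ₀ true ν₁ ν₂ l φ₀)
    (hG : (Matrix.of fun i j => tf (g (pP (Pi.single i 1), 0)).1
      (φ₀ (g (pP (Pi.single j 1), 0))).2 : M3 F).det ≠ 0) :
    ∃ ψ ∈ S6 (1 : Fˣ) 1 1, (∀ β, ψ (pP β, 0) = g (pP β, 0)) ∧
      (∀ z, ∃ β, φ₀ (ψ (pP β, 0)) = ψ (0, pQ z)) ∧ ∀ β, ∃ z, φ₀ (ψ (pP β, 0)) = ψ (0, pQ z) := by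
  have hs' := sim6_one.2 (mem_S6.1 hg)
  simp only [hs'.inl, hs.inl_true] at hG
  set x : Fin 3 → J1 F := fun i => fs6 g false (pP (Pi.single i 1)) with hx
  set y : Fin 3 → J1 F := fun i => sn6 φ₀ true (x i) with hy
  set G : M3 F := Matrix.of fun i j => tf (x i) (y j) with hG'
  have h1 : Sing3 x := fun i j => by
    rw [hs'.pr.cross_eq, cross_pP, hs'.pr.s2.zero, smul_zero]
  have h2 : Sing3 y := fun i j => by
    rw [hs.pr.swap.cross_eq, h1, hs.pr.s1.zero, smul_zero]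
  obtain ⟨k, k1, k2⟩ := stStmt F 1 1 1 x (fun i => sn6 g false (pQ (Pi.single i 1)))
    (fun j => ∑ i, G⁻¹ i j • y i) h1
    (fun i j => by rw [hs'.pr.swap.cross_eq, cross_pQ, hs'.pr.s1.zero, smul_zero])
    (fun i j => by
      simp only [Fin.sum_univ_three, cross_add_left, cross_add_right, cross_smul_left,
        cross_smul_right, h2 _ _, smul_zero, add_zero])
    (fun i j => by
      rw [hs'.pr.tf, tf_pP_pQ, one_mul, single_dotProduct, one_mul, Pi.single_apply]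
      rfl)
    (fun i j => by
      have := congrFun (congrFun (m3_mul_inv hG) i) j
      rw [Matrix.mul_apply, Matrix.one_apply] at this
      rw [← this]
      simp only [Fin.sum_univ_three, tf_add_right, tf_smul_right, hG', of_apply, mul_comm])
  have hk := (sim6_one.2 (mem_S6.1 k1)).semi
  have e1 : ∀ β, g (pP β, 0) = (∑ i, β i • x i, 0) := fun β => by
    rw [pP_sum, (semi_pair hs'.semi _ _).1]
    simp only [hs'.inl, Prod.smul_mk, smul_zero, ← prod_mk_sum, Finset.sum_const_zero]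
    rfl
  have e2 : ∀ β, (k * g) (pP β, 0) = g (pP β, 0) := fun β => by
    rw [Perm.mul_apply, e1, (semi_pair hk _ _).1]
    simp only [(k2 _).1, Prod.smul_mk, smul_zero, ← prod_mk_sum, Finset.sum_const_zero]
    rfl
  have e3 : ∀ z, (k * g) (0, pQ z) = (0, ∑ i, (G⁻¹ *ᵥ z) i • y i) := fun z => by
    rw [Perm.mul_apply, pQ_sum, (semi_pair hs'.semi _ _).2, hk.sum]
    simp only [hs'.inr, hk.smul, (k2 _).2]
    simp only [Prod.smul_mk, smul_zero, Prod.mk_add_mk, add_zero, AlgEquiv.one_apply,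
      Fin.sum_univ_three, mulVec, dotProduct]
    congr 1
    module
  have e4 : ∀ β, φ₀ ((k * g) (pP β, 0)) = (0, ∑ i, γ₀ (β i) • y i) := fun β => by
    rw [e2, e1, (semi_pair hs.semi _ _).1]
    simp only [hs.inl_true, Prod.smul_mk, smul_zero, ← prod_mk_sum, Finset.sum_const_zero]
    rfl
  refine ⟨k * g, mul_mem k1 hg, e2, fun z => ⟨fun i => γ₀.symm ((G⁻¹ *ᵥ z) i), ?_⟩,
    fun β => ⟨G *ᵥ fun i => γ₀ (β i), ?_⟩⟩
  · simp only [e3, e4, AlgEquiv.apply_symm_apply]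
  · rw [e3, e4, mulVec_mulVec, m3_inv_mul hG, one_mulVec]

/-- (MOVE) -/
theorem move (hGR : GRStmt) (hΦ : Dat6 Γ Φ) (hc : GrOn Φ (fun γ => γ ∈ Γ' ∧ γ d = d) false)
    (h0 : φ₀ ∈ Φ) (hγ : γ₀ ∈ Γ') (hd : γ₀ d = -d) (hs : Sim6 γ₀ true ν₁ ν₂ l φ₀)
    {g : Perm (W1 F)} (hg : g ∈ S6 (1 : Fˣ) 1 1)
    (hm : ∀ φ ∈ Φ, ∀ γ ∈ Γ', γ d = d → Semi γ φ → ∀ v, φ (g v) = g (φ v))
    (hG : (Matrix.of fun i j => tf (g (pP (Pi.single i 1), 0)).1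
      (φ₀ (g (pP (Pi.single j 1), 0))).2 : M3 F).det ≠ 0) :
    ∃ ψ ∈ S6 (1 : Fˣ) 1 1, (∀ β, ψ (pP β, 0) = g (pP β, 0)) ∧
      GrOn (tr ψ Φ) (fun γ => γ ∈ Γ' ∧ γ d = d) false ∧
      GrOn (tr ψ Φ) (fun γ => γ ∈ Γ' ∧ γ d = -d) true := by
  obtain ⟨ψ, k1, k2, k3, k4⟩ := exists_opp hg hs hG
  have hψ := mem_S6.1 k1
  have e : ψ.permCongr (ψ.symm.permCongr φ₀) = φ₀ := ψ.permCongr.apply_symm_apply φ₀
  obtain ⟨_, _, _, k5⟩ := hψ.tr (γ := γ₀) (e.symm ▸ hs)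
  have e' : ∀ v w, ψ.symm.permCongr φ₀ v = w ↔ φ₀ (ψ v) = ψ w := fun v w => by
    rw [← ψ.apply_eq_iff_eq, ← congr_apply, e]
  refine ⟨ψ, k1, k2, grOn_of hGR (hΦ.tr hψ) (symm_mem_tr.2 h0) hγ hd k5
    (fun z => (k3 z).imp fun _ => (e' _ _).2) (fun z => (k4 z).imp fun _ => (e' _ _).2)
    fun φ hφ γ l1 l2 ε _ _ _ l3 β => ?_⟩
  have l4 := (semi_congr hψ).2 l3.semi
  replace hφ := mem_tr.1 hφ
  obtain ⟨ε', _, _, _, l5⟩ := hΦ.sim_of hφ l4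
  obtain ⟨_, _, _, l6⟩ := hψ.tr l5
  obtain rfl := l6.eps_eq l3
  obtain ⟨β', l7⟩ := cm_pP l5 (hc _ hφ γ l4 ⟨l1, l2⟩) β
  have l8 : φ (pP β, 0) = (ψ⁻¹ * g) (inj ε' (pP β')) := by
    rw [Perm.mul_apply, Perm.eq_inv_iff_eq, ← congr_apply, k2, hm _ hφ γ l1 l2 l4, l7]
  have l9 : ∀ β, (ψ⁻¹ * g) (pP β, 0) = (pP β, 0) := fun β => by
    rw [Perm.mul_apply, Perm.inv_eq_iff_eq, k2]
  rw [l8]
  cases ε'
  · exact ⟨β', l9 β'⟩
  · exact ann_P hGR (sim6_one.2 (mem_S6.1 (mul_mem (inv_mem k1) hg))) (fun β => ⟨β, l9 β⟩) β'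

end Vale.Agent.P011N.Cl.MV
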