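import Vale.Agent.P011N.Cl.Defs3
import Vale.Agent.P011N.Cl.T.PF
import Vale.Agent.P011N.Cl.RM.WA

/-!
The Galois group and the real places.
-/

namespace Vale.Agent.P011N.Cl.MV

variable {F : Type} [Field F] [NumberField F] {Γ : Subgroup (Gl F)} {r σ θ γ δ : Gl F} {d q e x : F}
  {u : M3 F} {w w' : F →+* ℂ}

/-- The embedding is real on the ground field. -/
def Rl (Γ : Subgroup (Gl F)) (w : F →+* ℂ) : Prop := ∀ x, Fx Γ x → (w x).im = 0

theorem pow_two_cases (h : γ * γ = 1) (n : ℕ) : γ ^ n = 1 ∨ γ ^ n = γ := by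
  induction n with
  | zero => exact .inl (pow_zero γ)
  | succ n ih =>
    rcases ih with h1 | h1
    · exact .inr (by rw [pow_succ, h1, one_mul])
    · exact .inl (by rw [pow_succ, h1, h])

theorem pow_fix (h : γ x = x) (n : ℕ) : (γ ^ n) x = x := by
  induction n with
  | zero => rfl
  | succ n ih => rw [pow_succ, AlgEquiv.mul_apply, h, ih]

section os

variable (h : OSet Γ r σ θ d q e u)
include h

theorem os_r : r ∈ Γ := (h.gen r).2 ⟨1, 0, 0, by simp⟩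

theorem os_σ : σ ∈ Γ := (h.gen σ).2 ⟨0, 1, 0, by simp⟩

theorem os_θ : θ ∈ Γ := (h.gen θ).2 ⟨0, 0, 1, by simp⟩

theorem os_s : σ * θ ∈ Γ := mul_mem (os_σ h) (os_θ h)

theorem os_sd : (σ * θ) d = -d := by rw [AlgEquiv.mul_apply, h.θd, map_neg, h.σd]

theorem os_sq : (σ * θ) q = -q := by rw [AlgEquiv.mul_apply, h.θq, h.σq]

theorem os_ss : σ * θ * (σ * θ) = 1 := by
  rw [mul_assoc, ← mul_assoc θ, ← h.σθ, mul_assoc, h.θ2, mul_one, h.σ2]

theorem os_θθ (x : F) : θ (θ x) = x := by rw [← AlgEquiv.mul_apply, h.θ2, AlgEquiv.one_apply]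

theorem os_ne : d ≠ -d := fun h1 => h.d0 (by linear_combination (1 / 2 : F) * h1)

theorem os_form (hγ : γ ∈ Γ) :
    ∃ i : ℕ, γ = r ^ i ∨ γ = r ^ i * σ ∨ γ = r ^ i * θ ∨ γ = r ^ i * (σ * θ) := by
  obtain ⟨i, j, l, rfl⟩ := (h.gen γ).1 hγ
  refine ⟨i, ?_⟩
  rcases pow_two_cases h.σ2 j with h1 | h1 <;> rcases pow_two_cases h.θ2 l with h2 | h2 <;>
    simp [h1, h2, mul_assoc]

theorem os_pm (hγ : γ ∈ Γ) : γ d = d ∨ γ d = -d := by
  obtain ⟨i, rfl | rfl | rfl | rfl⟩ := os_form h hγ <;>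
    simp only [AlgEquiv.mul_apply, pow_fix h.rd, h.σd, h.θd, map_neg, true_or, or_true]

theorem os_comm (hγ : γ ∈ Γ) (hδ : δ ∈ Γ) : γ * δ = δ * γ := by
  obtain ⟨i, j, l, rfl⟩ := (h.gen γ).1 hγ
  obtain ⟨i', j', l', rfl⟩ := (h.gen δ).1 hδ
  have h1 : Commute r σ := h.rσ
  have h2 : Commute r θ := h.rθ
  have h3 : Commute σ θ := h.σθ
  exact ((((Commute.refl r).pow_pow _ _).mul_left (h1.symm.pow_pow _ _)).mul_left
    (h2.symm.pow_pow _ _)).mul_right (((h1.pow_pow _ _).mul_left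
      ((Commute.refl σ).pow_pow _ _)).mul_left (h3.symm.pow_pow _ _)) |>.mul_right
    (((h2.pow_pow _ _).mul_left (h3.pow_pow _ _)).mul_left ((Commute.refl θ).pow_pow _ _))

theorem os_r3 : r ^ 3 = 1 := by
  rcases h.cyc with ⟨h1, -⟩ | ⟨-, h1, -⟩
  · rw [h1, one_pow]
  · exact h1

theorem os_inv (hγ : γ ∈ Γ) (h1 : γ * γ = 1) (h2 : γ d = -d) : γ = θ ∨ γ = σ * θ := by
  have k : ∀ (i : ℕ), ∀ s ∈ Γ, s * s = 1 → r ^ i * s * (r ^ i * s) = 1 → r ^ i = 1 :=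
    fun i s k1 k2 k3 => by
      rw [mul_assoc, ← mul_assoc s, os_comm h k1 (pow_mem (os_r h) i), mul_assoc, k2,
        mul_one] at k3
      calc r ^ i = r ^ i * (r ^ i * r ^ i) := by rw [k3, mul_one]
        _ = (r ^ 3) ^ i := by rw [← pow_mul, ← pow_add, ← pow_add]; congr 1; ring
        _ = 1 := by rw [os_r3 h, one_pow]
  obtain ⟨i, rfl | rfl | rfl | rfl⟩ := os_form h hγ
  · exact absurd ((pow_fix h.rd i).symm.trans h2) (os_ne h)
  · rw [AlgEquiv.mul_apply, h.σd] at h2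
    exact absurd ((pow_fix h.rd i).symm.trans h2) (os_ne h)
  · exact .inl (by rw [k i θ (os_θ h) h.θ2 h1, one_mul])
  · exact .inr (by rw [k i _ (os_s h) (os_ss h) h1, one_mul])

theorem os_act (hγ : γ ∈ Γ) (hd : γ d = -d) (hx : Fx (stb Γ d) x) : γ x = θ x := by
  have h1 := hx (θ * γ) ⟨mul_mem (os_θ h) hγ, by
    change θ (γ d) = d
    rw [hd, map_neg, h.θd, neg_neg]⟩
  rw [← h1, AlgEquiv.mul_apply, os_θθ h, ← AlgEquiv.mul_apply θ, h1]

theorem os_fx (hx : Fx (stb Γ d) x) (h1 : θ x = x) : Fx Γ x := fun γ hγ => by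
  rcases os_pm h hγ with h2 | h2
  · exact hx γ ⟨hγ, h2⟩
  · rw [os_act h hγ h2 hx, h1]

theorem os_fxθ (hx : Fx (stb Γ d) x) : Fx (stb Γ d) (θ x) := fun γ hγ => by
  rw [← AlgEquiv.mul_apply, os_comm h hγ.1 (os_θ h), AlgEquiv.mul_apply, hx γ hγ]

end os

theorem exists_gal (h : ∀ x, Fx Γ x → w x = w' x) : ∃ γ ∈ Γ, ∀ x, w' x = w (γ x) := by
  have : IsGalois (IntermediateField.fixedField Γ) F := IsGalois.of_fixed_field F Γ
  obtain ⟨τ, hτ⟩ := NumberField.ComplexEmbedding.exists_comp_symm_eq_of_comp_eq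
    (k := IntermediateField.fixedField Γ) w w' (RingHom.ext fun c => h _ (fx_iff.2 c.2))
  refine ⟨τ.symm.restrictScalars ℚ, ?_, fun x => (RingHom.congr_fun hτ x).symm⟩
  exact (IntermediateField.fixingSubgroup_fixedField Γ).le
    ((IntermediateField.mem_fixingSubgroup_iff _ _).2 fun x hx => τ.symm.commutes ⟨x, hx⟩)

theorem rl_of (hγ : γ ∈ Γ) (h : ∀ x, w (γ x) = star (w x)) : Rl Γ w := fun x hx =>
  Complex.conj_eq_iff_im.1 (by simpa [hx γ hγ] using (h x).symm)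

theorem Rl.of_eq (h : Rl Γ w) (h1 : ∀ x, Fx Γ x → w x = w' x) : Rl Γ w' := fun x hx =>
  h1 x hx ▸ h x hx

theorem Rl.eq (h : Rl Γ w) (hx : Fx Γ x) : w x = ((w x).re : ℂ) :=
  Complex.ext rfl (h x hx)

theorem Rl.type (hw : Rl Γ w) (h : OSet Γ r σ θ d q e u) :
    (∀ x, w (θ x) = star (w x)) ∨ ∀ x, w ((σ * θ) x) = star (w x) := by
  obtain ⟨γ, h1, h2⟩ := exists_gal (Γ := Γ) (w := w) (w' := (starRingEnd ℂ).comp w)
    fun x hx => (Complex.conj_eq_iff_im.2 (hw x hx)).symm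
  have h3 : γ * γ = 1 := AlgEquiv.ext fun x => w.injective (by
    rw [AlgEquiv.mul_apply, ← h2, RingHom.comp_apply, ← h2]
    exact Complex.conj_conj _)
  have h4 : γ d = -d := (os_pm h h1).resolve_left fun h4 => by
    have h5 := h.neg w hw
    have h6 := h2 d
    rw [h4, RingHom.comp_apply, Complex.conj_eq_iff_im] at h6
    rw [map_pow, sq, Complex.mul_re, h6] at h5
    nlinarith [mul_self_nonneg (w d).re]
  rcases os_inv h h1 h3 h4 with rfl | rfl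
  exacts [.inl fun x => (h2 x).symm, .inr fun x => (h2 x).symm]

theorem Rl.conj (hw : Rl Γ w) (h : OSet Γ r σ θ d q e u) (hx : Fx (stb Γ d) x) :
    w (θ x) = star (w x) := by
  rcases hw.type h with h1 | h1
  · exact h1 x
  · rw [← h1, os_act h (os_s h) (os_sd h) hx]

/-- Weak approximation. -/
theorem exists_approx (h : OSet Γ r σ θ d q e u) {n : ℕ} (U : (F →+* ℂ) → Set (Fin n → ℂ))
    (hU : ∀ w, Rl Γ w → IsOpen (U w) ∧ (U w).Nonempty) :
    ∃ t : Fin n → F, (∀ i, Fx (stb Γ d) (t i)) ∧ ∀ w, Rl Γ w → ∃ w₀, Rl Γ w₀ ∧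
      (∀ x, Fx Γ x → w₀ x = w x) ∧ (fun i => w₀ (t i)) ∈ U w₀ := by
  let R : Setoid (F →+* ℂ) := ⟨fun w w' => ∀ x, Fx Γ x → w x = w' x, fun _ _ _ => rfl,
    fun h x hx => (h x hx).symm, fun h h' x hx => (h x hx).trans (h' x hx)⟩
  obtain ⟨t, h1, h2⟩ := RM.wa F Γ d n (fun _ => os_pm h) h.neg
    {w | Rl Γ w ∧ (Quotient.mk R w).out = w} (fun w hw => hw.1)
    (fun w hw w' hw' h1 => by rw [← hw.2, ← hw'.2, Quotient.sound (s := R) h1]) U
    fun w hw => hU w hw.1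
  refine ⟨t, fun i γ hγ => h1 i γ hγ.1 hγ.2, fun w hw => ?_⟩
  have h3 : ∀ x, Fx Γ x → (Quotient.mk R w).out x = w x := Quotient.mk_out (s := R) w
  have h4 := hw.of_eq fun x hx => (h3 x hx).symm
  exact ⟨_, h4, h3, h2 _ ⟨h4, by rw [Quotient.out_eq]⟩⟩

/-- Polynomial functions are continuous. -/
theorem pf_cont (w : F →+* ℂ) {n : ℕ} {f : (Fin n → F) × (Fin n → F) → F}
    (hf : f ∈ PF F ((Fin n → F) × (Fin n → F))) :
    ∃ g : (Fin n → ℂ) × (Fin n → ℂ) → ℂ, Continuous g ∧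
      ∀ x, w (f x) = g (fun i => w (x.1 i), fun i => w (x.2 i)) := by
  refine PF.induction (p := fun f => ∃ g : (Fin n → ℂ) × (Fin n → ℂ) → ℂ, Continuous g ∧
    ∀ x, w (f x) = g (fun i => w (x.1 i), fun i => w (x.2 i))) (fun l => ?_)
    (fun c => ⟨fun _ => w c, continuous_const, fun _ => rfl⟩) ?_ ?_ hf
  · refine ⟨fun z => ∑ i, z.1 i * w (l (Pi.single i 1, 0)) + ∑ i, z.2 i * w (l (0, Pi.single i 1)),
      by fun_prop, fun x => ?_⟩
    have h1 : x = ∑ i, x.1 i • (Pi.single i 1, 0) + ∑ i, x.2 i • (0, Pi.single i 1) := by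
      simp only [Prod.smul_mk, smul_zero, ← prod_mk_sum, Finset.sum_const_zero,
        ← pi_eq_sum_univ', Prod.mk_add_mk, add_zero, zero_add]
    conv_lhs => rw [h1]
    simp only [map_add, map_sum, map_smul, smul_eq_mul, map_mul]
  · rintro f g ⟨p, h1, h2⟩ ⟨q, h3, h4⟩
    exact ⟨fun z => p z + q z, h1.add h3, fun x => by rw [map_add, h2, h4]⟩
  · rintro f g ⟨p, h1, h2⟩ ⟨q, h3, h4⟩
    exact ⟨fun z => p z * q z, h1.mul h3, fun x => by rw [map_mul, h2, h4]⟩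

end Vale.Agent.P011N.Cl.MV
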