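import Vale.Agent.P011N.Cl.TC.Act
import Vale.Agent.P011N.Cl.JT.Un

/-!
The action on the first factor and the changes of its basis.
-/

namespace Vale.Agent.P011N.Cl.MV

open Vale.Agent.P011.MPQ Vale.Agent.P011.D4 Vale.Agent.P011.D4.Oct Vale.Agent.P011.E6 Equiv Matrix
open Vale.Agent.P011.E6O Vale.Agent.P011.E6.Alb

variable {F : Type} [Field F]

/-- The map acts on the Lie algebra of the first factor through the matrix `a`. -/
def ActA (γ : F → F) (κ : Bool) (a : M3 F) (φ : W1 F → W1 F) : Prop :=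
  ∀ δ v, φ (slA δ v) = slA (a * (if κ then -(δ.map γ)ᵀ else δ.map γ) * a⁻¹) (φ v)

/-- The grading matrix. -/
abbrev hz : M3 F := diagonal ![2, -1, -1]

theorem scalar_of_comm {a : M3 F} (h : ∀ δ : M3 F, a * δ = δ * a) : ∃ s : F, a = s • 1 := by
  obtain ⟨s, hs⟩ := Matrix.mem_range_scalar_of_commute_single (M := a)
    fun i j _ => (h _).symm
  exact ⟨s, by rw [← hs, Matrix.scalar_apply, Matrix.smul_one_eq_diagonal]⟩

theorem comm_hz {a : M3 F} (h1 : a 0 1 = 0) (h2 : a 0 2 = 0) (h3 : a 1 0 = 0) (h4 : a 2 0 = 0) :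
    a * hz = hz * a := by
  ext i j
  rw [mul_diagonal, diagonal_mul]
  fin_cases i <;> fin_cases j <;> simp [*, mul_comm]

theorem det_block {a : M3 F} (h1 : a 0 1 = 0) (h2 : a 0 2 = 0) (h : a.det ≠ 0) : a 0 0 ≠ 0 := by
  intro h0
  apply h
  rw [det_fin_three, h0, h1, h2]
  ring

theorem inv_tr (a : M3 F) : aᵀ⁻¹ = a⁻¹ᵀ := (transpose_nonsing_inv a).symm

variable [CharZero F] {γ γ' : Gl F} {κ κ' ε : Bool} {a a' T : M3 F}

theorem det_map_ne (h : a.det ≠ 0) (γ : Gl F) : (a.map γ).det ≠ 0 := by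
  rw [m3_det_map]
  exact (_root_.map_ne_zero γ).2 h

theorem map_mul_gl (γ γ' : Gl F) (a : M3 F) : a.map ⇑(γ * γ') = (a.map γ').map γ := rfl

theorem hz_map (γ : Gl F) : (hz : M3 F).map γ = hz := by
  ext i j
  fin_cases i <;> fin_cases j <;> simp [map_ofNat]

theorem block_of_comm (h : a * hz = hz * a) : a 0 1 = 0 ∧ a 0 2 = 0 ∧ a 1 0 = 0 ∧ a 2 0 = 0 := by
  have k := fun i j => congrFun (congrFun h i) j
  have k1 := k 0 1
  have k2 := k 0 2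
  have k3 := k 1 0
  have k4 := k 2 0
  simp only [mul_diagonal, diagonal_mul, cons_val] at k1 k2 k3 k4
  exact ⟨by linear_combination (-1 / 3 : F) * k1, by linear_combination (-1 / 3 : F) * k2,
    by linear_combination (1 / 3 : F) * k3, by linear_combination (1 / 3 : F) * k4⟩

theorem eq_of_slA {δ δ' : M3 F} (h : ∀ v, slA δ v = slA δ' v) : δ = δ' :=
  sl1_inj fun x => congrArg Prod.fst (h (x, 0))

theorem ActA.unique {φ : Perm (W1 F)} (h : ActA γ κ a φ) (h' : ActA γ κ a' φ) (ha : a.det ≠ 0)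
    (ha' : a'.det ≠ 0) : ∃ s : F, s ≠ 0 ∧ a' = s • a := by
  have k : ∀ δ : M3 F, a * δ * a⁻¹ = a' * δ * a'⁻¹ := fun δ => by
    obtain ⟨δ₀, rfl⟩ : ∃ δ₀ : M3 F, (if κ then -(δ₀.map γ)ᵀ else δ₀.map γ) = δ := by
      cases κ
      · exact ⟨δ.map γ.symm, map_map_symm γ δ⟩
      · exact ⟨(-δᵀ).map γ.symm, by simp [map_map_symm, -Matrix.map_map]⟩
    refine eq_of_slA fun v => ?_
    obtain ⟨v, rfl⟩ := φ.surjective v
    rw [← h, ← h']
  obtain ⟨s, hs⟩ := scalar_of_comm (a := a⁻¹ * a') fun δ => by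
    have k1 := congrArg (fun x => a⁻¹ * x * a') (k δ)
    simp only [Matrix.mul_assoc, m3_inv_mul' ha, m3_inv_mul ha', Matrix.mul_one] at k1
    rw [Matrix.mul_assoc, ← k1]
  have k2 : a' = s • a := by
    rw [← m3_mul_inv' ha a', hs, Matrix.mul_smul, Matrix.mul_one]
  refine ⟨s, ?_, k2⟩
  rintro rfl
  exact ha' (by simp [k2])

theorem ActA.unique' {φ : Perm (W1 F)} (h : ActA γ κ a φ) (h' : ActA γ κ a' φ) (ha : a.det ≠ 0)
    (ha' : a'.det ≠ 0) (h0 : a 0 0 = 1) (h0' : a' 0 0 = 1) : a' = a := by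
  obtain ⟨s, -, rfl⟩ := h.unique h' ha ha'
  rw [Matrix.smul_apply, h0, smul_eq_mul, mul_one] at h0'
  rw [h0', one_smul]

omit [CharZero F] in
theorem ActA.smul {γ : F → F} {φ : W1 F → W1 F} (h : ActA γ κ a φ) (ha : a.det ≠ 0) {s : F}
    (hs : s ≠ 0) : ActA γ κ (s • a) φ := fun δ v => by
  rw [h, m3_inv_smul hs ha]
  simp only [Matrix.smul_mul, Matrix.mul_smul, smul_smul, inv_mul_cancel₀ hs, one_smul]

theorem ActA.mul_false {φ φ' : Perm (W1 F)} (h : ActA γ false a φ) (h' : ActA γ' κ a' φ')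
    (ha' : a'.det ≠ 0) : ActA (⇑(γ * γ')) κ (a * a'.map γ) ⇑(φ * φ') := fun δ v => by
  rw [Perm.mul_apply, h', h, Perm.mul_apply, Matrix.mul_inv_rev]
  cases κ <;>
    simp [Matrix.map_mul, m3_map_inv γ ha', map_mul_gl, Matrix.mul_assoc, Matrix.map_neg,
      transpose_map, -Matrix.map_map]

theorem ActA.mul_true {φ φ' : Perm (W1 F)} (h : ActA γ true a φ) (h' : ActA γ' κ a' φ')
    (ha' : a'.det ≠ 0) : ActA (⇑(γ * γ')) (!κ) (a * (a'.map γ)⁻¹ᵀ) ⇑(φ * φ') := fun δ v => by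
  rw [Perm.mul_apply, h', h, Perm.mul_apply, Matrix.mul_inv_rev, inv_tr,
    m3_inv_inv (det_map_ne ha' γ)]
  cases κ <;>
    simp [Matrix.map_mul, m3_map_inv γ ha', map_mul_gl, Matrix.mul_assoc, Matrix.map_neg,
      transpose_map, -Matrix.map_map]

theorem actA_Z6 {z : Perm (W1 F)} (hz : z ∈ Z6 (1 : Fˣ) 1 1) : ActA (⇑(1 : Gl F)) false 1 z :=
  fun δ v => by
    rw [Z6_slA hz, Matrix.one_mul, inv_one, Matrix.mul_one]
    rfl

theorem ActA.cm {φ : W1 F → W1 F} (h : ActA γ κ a φ) (ha : a.det ≠ 0) (hc : a * hz = hz * a) :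
    Cm κ φ := fun v => by
  rw [h, hz_map]
  cases κ
  · simp [hc, Matrix.mul_assoc, m3_mul_inv ha]
  · rw [if_pos rfl, if_pos rfl, diagonal_transpose, Matrix.mul_neg, hc, Matrix.neg_mul,
      Matrix.mul_assoc, m3_mul_inv ha, Matrix.mul_one, slA_neg, neg_one_smul]

theorem ActA.comm_hz {φ : Perm (W1 F)} (h : ActA γ κ a φ) (ha : a.det ≠ 0) (hc : Cm κ φ) :
    a * hz = hz * a := by
  have k : a * hz * a⁻¹ = hz := eq_of_slA fun v => by
    obtain ⟨v, rfl⟩ := φ.surjective v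
    have k1 := (h hz v).symm.trans (hc v)
    rw [hz_map] at k1
    cases κ
    · simpa using k1
    · rw [if_pos rfl, if_pos rfl, diagonal_transpose, Matrix.mul_neg, Matrix.neg_mul, slA_neg,
        neg_one_smul] at k1
      exact neg_injective k1
  calc a * hz = a * hz * a⁻¹ * a := by rw [Matrix.mul_assoc, m3_inv_mul ha, Matrix.mul_one]
    _ = hz * a := by rw [k]

/-- The normal form with a prescribed first matrix. -/
theorem tnf_of_act (hNF : NFStmt) {φ : Perm (W1 F)} {ν₁ ν₂ m : F} (hs : Sim6 γ ε ν₁ ν₂ m φ)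
    (hc : Cm κ φ) (h : ActA γ κ a φ) (ha : a.det ≠ 0) :
    ∃ b c l, TNF γ ε κ a b c l m φ ∧ l 0 * l 1 * l 2 = if ε then ν₂ else ν₁ := by
  obtain ⟨a', b, c, l, h1, h2, -⟩ := hNF F φ γ ε κ ν₁ ν₂ m hs hc
  obtain ⟨s, h3, rfl⟩ := ActA.unique (h1.slA hs.semi) h h1.da ha
  refine ⟨b, c, _, h1.smul_a h3, ?_⟩
  rw [← h2]
  simp only [cons_val]
  field_simp

/-- The normalised first matrix. -/
theorem exists_act (hNF : NFStmt) {φ : Perm (W1 F)} {ν₁ ν₂ m : F} (hs : Sim6 γ ε ν₁ ν₂ m φ)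
    (hc : Cm κ φ) : ∃ a : M3 F, a.det ≠ 0 ∧ a 0 0 = 1 ∧ a * hz = hz * a ∧ ActA γ κ a φ := by
  obtain ⟨a, b, c, l, h1, -, h2, h3, h4, h5⟩ := hNF F φ γ ε κ ν₁ ν₂ m hs hc
  have h6 := det_block h2 h3 h1.da
  refine ⟨(a 0 0)⁻¹ • a, by simp [h1.da, h6], by simp [h6], ?_,
    ActA.smul (h1.slA hs.semi) h1.da (inv_ne_zero h6)⟩
  rw [Matrix.smul_mul, Matrix.mul_smul, comm_hz h2 h3 h4 h5]

/-- A change of the basis of the first factor. -/
structure ChA (T : M3 F) (ψ : Perm (W1 F)) : Prop where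
  det : T.det ≠ 0
  sim : ∃ ν₁ ν₂ l, Sim6 id false ν₁ ν₂ l ψ
  act : ActA id false T ψ
  pp : ∀ β, ψ (pP β, 0) = slA T (pP β, 0)

theorem exists_chA (hT : T.det ≠ 0) : ∃ ψ, ChA T ψ := by
  have h : TD T 1 (diagonal ![T.det ^ 2, 1, 1]) ![1, T.det, 1] := by
    refine ⟨hT, by simp, by simp [Fin.prod_univ_three, hT], fun i => ?_, by simp,
      by simp [Fin.prod_univ_three], by simp [Fin.prod_univ_three, sq]⟩
    fin_cases i <;> simp [hT]
  refine ⟨h.act one_ne_zero, hT, ⟨_, _, _, h.sim one_ne_zero⟩,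
    TNF.slA (γ := 1) (h.tnf one_ne_zero) (h.sim one_ne_zero).semi, fun β => ?_⟩
  rw [pP, (h.tnf one_ne_zero).fst, slA_eq, sl1_mkT]
  simp [inj, tp]

theorem ChA.mul {T' : M3 F} {ψ ψ' : Perm (W1 F)} (h : ChA T ψ) (h' : ChA T' ψ') :
    ActA id false (T * T') ⇑(ψ * ψ') :=
  ActA.mul_false (γ := 1) (γ' := 1) h.act h'.act h'.det

omit [CharZero F] in
theorem congr_apply (ψ φ : Perm (W1 F)) (v : W1 F) : ψ.permCongr φ (ψ v) = ψ (φ v) := by simp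

/-- The first matrix in the new basis. -/
theorem ActA.tr {ψ φ : Perm (W1 F)} (hψ : ActA id false T ψ) (hT : T.det ≠ 0)
    (h : ActA γ κ a (ψ.permCongr φ)) :
    ActA γ κ (T⁻¹ * a * if κ then (T.map γ)⁻¹ᵀ else T.map γ) φ := fun δ v => by
  apply ψ.injective
  rw [← congr_apply, hψ, h, hψ, congr_apply]
  congr 1
  have h1 := det_map_ne hT γ
  cases κ <;>
    simp [Matrix.map_mul, m3_map_inv γ hT, Matrix.mul_assoc, Matrix.mul_inv_rev, m3_inv_inv hT,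
      m3_mul_inv' hT, m3_mul_inv hT, inv_tr, m3_inv_inv h1]

/-! The transport of the conditions. -/

variable {Γ Γ₀ : Subgroup (Gl F)} {Φ : Subgroup (Perm (W1 F))} {ψ : Perm (W1 F)} {ν₁ ν₂ l : F}

theorem semi_congr (hψ : Sim6 id false ν₁ ν₂ l ψ) {φ : Perm (W1 F)} :
    Semi γ (ψ.permCongr φ) ↔ Semi γ φ := by
  refine ⟨fun h => ?_, fun h => (Semi.lin_comp hψ.semi (h.comp_lin hψ.semi.symm_lin) :)⟩
  have h1 := Semi.lin_comp hψ.semi.symm_lin (h.comp_lin hψ.semi)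
  have h2 : ψ.symm ∘ ψ.permCongr φ ∘ ψ = φ := funext fun x => by simp
  rwa [h2] at h1

theorem cm_congr (hψ : Sim6 id false ν₁ ν₂ l ψ) (hc : Cm false ψ) {φ : Perm (W1 F)}
    (h : Cm κ (ψ.permCongr φ)) : Cm κ φ := fun v => by
  apply ψ.injective
  rw [← congr_apply, hc, (semi_one.2 hψ.semi).smul, hc, ← congr_apply]
  simpa using h (ψ v)

theorem grOn_tr (hψ : Sim6 id false ν₁ ν₂ l ψ) (hc : Cm false ψ) {P : Gl F → Prop}
    (h : GrOn Φ P κ) : GrOn (tr ψ Φ) P κ := fun _ hφ γ hs hP =>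
  cm_congr hψ hc (h _ hφ γ ((semi_congr hψ).2 hs) hP)

theorem cfg_tr {r : Gl F} {q : F} {u : M3 F} (h : Cfg Γ r q u Φ) (hψ : Sim6 id false ν₁ ν₂ l ψ)
    (hp : ∀ p ∈ Φ, Semi r p → (∀ β, p (pP β, 0) = (pP (u *ᵥ fun i => r (β i)), 0)) →
      ∀ β, p (ψ (pP β, 0)) = ψ (pP (u *ᵥ fun i => r (β i)), 0)) : Cfg Γ r q u (tr ψ Φ) := by
  refine ⟨h.dat.tr hψ, fun φ hφ γ hs => ?_, ?_⟩
  · have h1 := (semi_congr hψ).2 hs
    obtain ⟨ε, _, _, _, h2⟩ := h.dat.sim_of hφ h1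
    obtain ⟨_, _, _, h3⟩ := hψ.tr h2
    rw [h3.inner_iff, ← h2.inner_iff]
    exact h.inn _ hφ γ h1
  · obtain ⟨p, h1, h2, h3⟩ := h.cyc
    have h4 : ψ.permCongr (ψ.symm.permCongr p) = p := ψ.permCongr.apply_symm_apply p
    refine ⟨ψ.symm.permCongr p, symm_mem_tr.2 h1, (semi_congr hψ).1 (h4.symm ▸ h2), fun β => ?_⟩
    apply ψ.injective
    rw [← congr_apply, h4, hp p h1 h2 h3]

/-- The elements over `Γ₀` act on the first factor in the standard way. -/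
def Triv (Φ : Subgroup (Perm (W1 F))) (Γ₀ : Subgroup (Gl F)) : Prop :=
  ∀ φ ∈ Φ, ∀ γ ∈ Γ₀, Semi γ φ → ActA γ false 1 φ

theorem ActA.one {φ : W1 F → W1 F} (h : ActA γ false 1 φ) (δ : M3 F) (v : W1 F) :
    φ (slA δ v) = slA (δ.map γ) (φ v) := by simpa using h δ v

omit [CharZero F] in
theorem pf_det {U : Type} [AddCommGroup U] [Module F U] {f : U → M3 F} (hf : PM F f) :
    (fun x => (f x).det) ∈ PF F U := by
  have e : ∀ i j, (fun x => f x i j) ∈ PF F U := fun i j => hf (Matrix.entryLinearMap F F i j)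
  simp only [det_fin_three]
  exact PF.sub (PF.add (PF.add (PF.sub (PF.sub (PF.mul (PF.mul (e _ _) (e _ _)) (e _ _))
    (PF.mul (PF.mul (e _ _) (e _ _)) (e _ _))) (PF.mul (PF.mul (e _ _) (e _ _)) (e _ _)))
    (PF.mul (PF.mul (e _ _) (e _ _)) (e _ _))) (PF.mul (PF.mul (e _ _) (e _ _)) (e _ _)))
    (PF.mul (PF.mul (e _ _) (e _ _)) (e _ _))

theorem slA_pP (h : T *ᵥ Pi.single 0 1 = Pi.single 0 1) (β : Fin 3 → F) :
    slA T (pP β, 0) = (pP β, 0) := by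
  rw [slA_eq, pP, sl1_mkT, mul_vecMulVec, h]
  simp

/-- (N0) The action on the first factor is made standard. -/
theorem n0 {F : Type} [Field F] [NumberField F] {Γ Γ₀ : Subgroup (Gl F)}
    {Φ : Subgroup (Perm (W1 F))} (hNF : NFStmt) (hΦ : Dat6 Γ Φ) (hle : Γ₀ ≤ Γ)
    (hG : GrOn Φ (fun γ => γ ∈ Γ₀) false) : ∃ (T : M3 F) (ψ : Perm (W1 F)), ChA T ψ ∧
      T 0 0 = 1 ∧ T * hz = hz * T ∧ Cm false ψ ∧ (∀ β, ψ (pP β, 0) = (pP β, 0)) ∧
      Triv (tr ψ Φ) Γ₀ := by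
  have k : ∀ γ : Gl F, ∃ a : M3 F, γ ∈ Γ₀ → a.det ≠ 0 ∧ a 0 0 = 1 ∧ a * hz = hz * a ∧
      ∀ φ ∈ Φ, Semi γ φ → ActA γ false a φ := fun γ => by
    by_cases hγ : γ ∈ Γ₀
    swap
    · exact ⟨1, fun h => absurd h hγ⟩
    obtain ⟨φ, h1, h2⟩ := hΦ.ov.onto γ (hle hγ)
    obtain ⟨ε, _, _, _, h3⟩ := hΦ.sim_of h1 h2
    obtain ⟨a, h4, h5, h6, h7⟩ := exists_act hNF h3 (hG φ h1 γ h2 hγ)
    refine ⟨a, fun _ => ⟨h4, h5, h6, fun φ' k1 k2 => ?_⟩⟩
    obtain ⟨z, k3, rfl⟩ := hΦ.exists_Z6 h1 k1 h2 k2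
    have k4 := (actA_Z6 k3).mul_false h7 h4
    rwa [one_mul, Matrix.one_mul] at k4
  choose a ha using k
  have h1 : a 1 = 1 := by
    obtain ⟨k1, k2, -, k4⟩ := ha 1 Γ₀.one_mem
    exact (actA_Z6 (one_mem _)).unique' (k4 1 Φ.one_mem semi_id) (by simp) k1 (by simp) k2
  have h2 : ∀ γ ∈ Γ₀, ∀ δ ∈ Γ₀, a (γ * δ) = a γ * (a δ).map γ := fun γ hγ δ hδ => by
    obtain ⟨k1, k2, k3, k4⟩ := ha γ hγ
    obtain ⟨l1, l2, l3, l4⟩ := ha δ hδ
    obtain ⟨m1, m2, -, m4⟩ := ha _ (Γ₀.mul_mem hγ hδ)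
    obtain ⟨φ, p1, p2⟩ := hΦ.ov.onto γ (hle hγ)
    obtain ⟨φ', q1, q2⟩ := hΦ.ov.onto δ (hle hδ)
    refine ((k4 φ p1 p2).mul_false (l4 φ' q1 q2) l1).unique'
      (m4 _ (Φ.mul_mem p1 q1) (p2.mul q2)) ?_ m1 ?_ m2
    · rw [det_mul]
      exact mul_ne_zero k1 (det_map_ne l1 γ)
    · simp [Matrix.mul_apply, Fin.sum_univ_three, k2, l2, block_of_comm k3]
  have h3 := span_fixed (Γ := Γ₀) (fun γ (X : M3 F) => a γ * X.map γ)
    (fun γ _ t X Y => by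
      ext i j
      simp [Matrix.mul_apply, Fin.sum_univ_three]
      ring)
    (fun γ hγ δ hδ X => by rw [h2 γ hγ δ hδ, Matrix.map_mul, Matrix.mul_assoc, map_mul_gl])
    (fun X => by rw [h1, Matrix.one_mul]; rfl)
  let P : AddSubmonoid (M3 F) :=
    { carrier := {X | ∀ γ ∈ Γ₀, a γ * X.map γ = X}
      zero_mem' := fun γ _ => by simp
      add_mem' := fun {X Y} hX hY γ hγ => by
        rw [Matrix.map_add _ (map_add γ), Matrix.mul_add, hX γ hγ, hY γ hγ] }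
  let D : M3 F := diagonal ![0, 1, 1]
  let E : M3 F := diagonal ![1, 0, 0]
  obtain ⟨X, hX, h4⟩ := exists_ne_pf P h3 (f := fun X => (E + D * X * D).det)
    (pf_det ((PM.const E).add (PM.lin (LinearMap.mulRight F D ∘ₗ LinearMap.mulLeft F D))))
    ⟨1, by simp [D, E, Fin.prod_univ_three]⟩
  obtain ⟨ψ, hψ⟩ := exists_chA h4
  have h5 : (E + D * X * D) * hz = hz * (E + D * X * D) := by
    apply comm_hz <;> simp [D, E]
  have h6 : ∀ γ ∈ Γ₀, a γ * (E + D * X * D).map γ = E + D * X * D := fun γ hγ => by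
    obtain ⟨-, k2, k3, -⟩ := ha γ hγ
    obtain ⟨k4, k5, k6, k7⟩ := block_of_comm k3
    have k8 := fun i j => congrFun (congrFun (hX γ hγ) i) j
    simp only [Matrix.mul_apply, Fin.sum_univ_three, map_apply] at k8
    ext i j
    have k9 := k8 i j
    fin_cases i <;> fin_cases j <;>
      simp_all [D, E, Matrix.mul_apply, Fin.sum_univ_three]
  obtain ⟨ν₁, ν₂, l, hs⟩ := hψ.sim
  refine ⟨_, ψ, hψ, by simp [D, E], h5, ActA.cm (γ := 1) hψ.act h4 h5, fun β => ?_,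
    fun φ hφ γ hγ h7 => ?_⟩
  · rw [hψ.pp, slA_pP]
    ext i
    fin_cases i <;> simp [D, E]
  · have h8 := ActA.tr hψ.act h4 ((ha γ hγ).2.2.2 _ hφ ((semi_congr hs).2 h7))
    rwa [if_neg Bool.false_ne_true, Matrix.mul_assoc, h6 γ hγ, m3_inv_mul h4] at h8

end Vale.Agent.P011N.Cl.MV
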