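import Vale.Agent.P011N.Cl.MV.Match

/-!
The anisotropic groups.
-/

namespace Vale.Agent.P011N.Cl.MV

open Vale.Agent.P011.MPQ Vale.Agent.P011.D4 Vale.Agent.P011.D4.Oct Vale.Agent.P011.E6 Equiv Matrix
open Vale.Agent.P011.E6O Vale.Agent.P011.E6.Alb
open scoped ComplexOrder

open scoped MatrixOrder Matrix.Norms.L2Operator in
theorem tr_pos {P Q : RM.MC} (hP : P.PosDef) (hQ : Q.PosDef) (X : RM.MC) :
    0 ≤ (X * P * Xᴴ * Q).trace ∧ ((X * P * Xᴴ * Q).trace = 0 → X = 0) := by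
  obtain ⟨y, hy, rfl⟩ := CStarAlgebra.isStrictlyPositive_iff_eq_star_mul_self.mp
    hP.isStrictlyPositive
  obtain ⟨z, hz, rfl⟩ := CStarAlgebra.isStrictlyPositive_iff_eq_star_mul_self.mp
    hQ.isStrictlyPositive
  have h : (X * (star y * y) * Xᴴ * (star z * z)).trace =
      ((z * X * star y) * (z * X * star y)ᴴ).trace := by
    simp only [star_eq_conjTranspose, conjTranspose_mul, conjTranspose_conjTranspose,
      ← Matrix.mul_assoc]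
    rw [Matrix.trace_mul_comm _ z]
    simp only [← Matrix.mul_assoc]
  rw [h]
  refine ⟨(posSemidef_self_mul_conjTranspose _).trace_nonneg, fun h1 => ?_⟩
  rwa [trace_mul_conjTranspose_self_eq_zero_iff, hy.star.mul_left_eq_zero,
    hz.mul_right_eq_zero] at h1

theorem aniso_cx {G₁ G₂ D X Y Z : RM.MC} {n a : ℝ} (hn : n ≠ 0) (h1 : ((n : ℂ) • G₁).PosDef)
    (h2 : ((n : ℂ) • G₂).PosDef) (hD : D.PosDef) (ha : 0 < a)
    (h : (X * G₁ * Xᴴ * D⁻¹).trace + (a : ℂ)⁻¹ * (Z * D * Zᴴ * G₂ᵀ).trace +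
      n * a * (Y * G₂ᵀ⁻¹ * Yᴴ * G₁⁻¹).trace = 0) : X = 0 ∧ Y = 0 ∧ Z = 0 := by
  have hn' : (n : ℂ) ≠ 0 := Complex.ofReal_ne_zero.2 hn
  have ha' : (0 : ℂ) < a := Complex.zero_lt_real.2 ha
  have d1 : G₁.det ≠ 0 := fun k => h1.det_pos.ne' (by simp [k])
  have d2 : G₂ᵀ.det ≠ 0 := fun k => h2.det_pos.ne' (by simp [det_transpose G₂ ▸ k])
  obtain ⟨p1, p2⟩ := tr_pos h1 hD.inv X
  obtain ⟨q1, q2⟩ := tr_pos hD h2.transpose Z
  obtain ⟨r1, r2⟩ := tr_pos h2.transpose.inv h1.inv Y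
  have k1 := mul_nonneg (inv_pos.2 ha').le q1
  have k0 : (0 : ℂ) < n ^ 4 * a := by
    norm_cast
    positivity
  have k2 := mul_nonneg k0.le r1
  have k3 : (X * ((n : ℂ) • G₁) * Xᴴ * D⁻¹).trace +
      (a : ℂ)⁻¹ * (Z * D * Zᴴ * ((n : ℂ) • G₂)ᵀ).trace +
      n ^ 4 * a * (Y * ((n : ℂ) • G₂)ᵀ⁻¹ * Yᴴ * ((n : ℂ) • G₁)⁻¹).trace = 0 := by
    rw [transpose_smul, m3_inv_smul hn' d1, m3_inv_smul hn' d2]
    simp only [Matrix.mul_smul, Matrix.smul_mul, trace_smul, smul_eq_mul]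
    field_simp at h ⊢
    linear_combination n * h
  obtain ⟨k4, k5⟩ := (add_eq_zero_iff_of_nonneg (add_nonneg p1 k1) k2).1 k3
  obtain ⟨k6, k7⟩ := (add_eq_zero_iff_of_nonneg p1 k1).1 k4
  exact ⟨p2 k6, r2 ((mul_eq_zero.1 k5).resolve_left k0.ne'),
    q2 ((mul_eq_zero.1 k7).resolve_left (inv_pos.2 ha').ne')⟩

variable {F : Type} [Field F] [NumberField F] {Γ : Subgroup (Gl F)} {r σ θ s γ : Gl F}
  {d q e h₁ h₂ ν : F} {u G G₁ G₂ M P a T : M3 F} {Φ : Subgroup (Perm (W1 F))}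
  {φ₀ ψ : Perm (W1 F)} {w : F →+* ℂ}

theorem Rl.ne (hw : Rl Γ w) {x : F} (hx : Fx Γ x) (h0 : x ≠ 0) : (w x).re ≠ 0 := fun k =>
  h0 (w.injective (by rw [hw.eq hx, k, map_zero, Complex.ofReal_zero]))

theorem Hm.aniso (hm : Hm s h₁ h₂ ν G₁ G₂ φ₀) (hS : Std Γ d h₁ h₂ Φ) (hs : s ∈ Γ)
    (hw : ∀ x, w (s x) = star (w x)) (h1 : (((w ν).re : ℂ) • G₁.map w).PosDef)
    (h2 : (((w ν).re : ℂ) • G₂.map w).PosDef) (x : J1 F) (hx : hq φ₀ x x = 0) : x = 0 := by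
  obtain ⟨-, -, -, k1, k2⟩ := hm.pos hS hs hw
  have k3 := rl_of hs hw
  have k4 := hS.pos w k3
  have k5 : 0 < (w h₂).re := by
    have l1 := RM.det_re_pos h1
    rw [det_smul, m3_det_map, hm.d1, map_mul, map_mul, k1, k3.eq hS.f1, k3.eq hS.f2,
      Fintype.card_fin] at l1
    norm_cast at l1
    rw [← mul_assoc, ← pow_succ, ← mul_assoc] at l1
    exact (pos_iff_pos_of_mul_pos l1).1 (mul_pos (Even.pow_pos (by decide) k2) k4)
  obtain ⟨X, Y, Z, rfl⟩ := exists_mkT x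
  have k6 := congrArg w ((hm.val X Y Z).symm.trans hx)
  have d1 : G₁.det ≠ 0 := hm.d1 ▸ mul_ne_zero hm.ne (mul_ne_zero hS.n1 hS.n2)
  have d2 : G₂ᵀ.det ≠ 0 := by
    rw [det_transpose]
    exact right_ne_zero_of_mul (hm.d2 ▸ mul_ne_zero (pow_ne_zero _ hm.ne) (pow_ne_zero _ hS.n1))
  have e : ∀ A : M3 F, w A.trace = (A.map w).trace := fun A => AddMonoidHom.map_trace w A
  simp only [map_add, map_mul, map_zero, map_inv₀, e, Matrix.map_mul, transpose_map, map_cj hw,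
    m3_map_inv w hS.det, m3_map_inv w d1, m3_map_inv w d2] at k6
  rw [k1, k3.eq hS.f1] at k6
  obtain ⟨l1, l2, l3⟩ := aniso_cx k2 h1 h2 (by
    rw [diagonal_map (map_zero w), posDef_diagonal_iff]
    intro i
    fin_cases i
    · simp
    · exact (k3.eq hS.f1).symm ▸ Complex.zero_lt_real.2 k4
    · exact (k3.eq hS.f2).symm ▸ Complex.zero_lt_real.2 k5) k4 k6
  have l4 : ∀ A : M3 F, A.map w = 0 → A = 0 := fun A hA => Matrix.ext fun i j =>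
    (_root_.map_eq_zero w).1 (congrFun (congrFun hA i) j)
  rw [l4 X l1, l4 Y l2, l4 Z l3, mkT_zero]

theorem aniso_tr {ν₁ ν₂ l : F} (hΦ : Dat6 Γ Φ) (hψ : Sim6 id false ν₁ ν₂ l ψ)
    (h0 : φ₀ ∈ tr ψ Φ) (hs : Semi s φ₀) (h : ∀ x, hq φ₀ x x = 0 → x = 0) :
    ∀ φ ∈ Φ, Semi s φ → ∀ x, tf x (φ (x, 0)).2 = 0 → x = 0 := fun φ hφ k1 x hx => by
  obtain ⟨z, k2, rfl⟩ := hΦ.exists_Z6 (mem_tr.1 h0) hφ ((semi_congr hψ).2 hs) k1
  obtain ⟨t, t', k3⟩ := mem_Z6.1 k2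
  have k4 := sim6_one.2 hψ
  obtain ⟨y, rfl⟩ := k4.pr.b1.2 x
  rw [Perm.mul_apply, k3, ← k4.inl, congr_apply, tf_smul_right, k4.apply, k4.pr.tf] at hx
  rw [h y (by simpa [hq, (ne_of_scal6 k3).2, hψ.ne.2.2] using hx), k4.pr.s1.zero]

theorem tnf_semi {ε κ : Bool} {b c : M3 F} {l : Fin 3 → F} {m : F} {φ : W1 F → W1 F}
    (h : TNF θ ε κ a b c l m φ) (hs : Semi γ φ) : γ = θ := AlgEquiv.ext fun t => by
  have k1 := hs.smul t (mkT 0 1 0, 0)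
  have k2 : ∀ t : F, tp κ θ (t • (1 : M3 F)) (t • 1) = θ t • 1 := fun t => by
    cases κ <;> ext i j <;> simp [tp, Matrix.one_apply, apply_ite θ, eq_comm]
  have k3 := k2 1
  rw [one_smul, map_one, one_smul] at k3
  rw [Prod.smul_mk, smul_zero, mkT_smul, h.fst, h.fst, ← inj_smul', mkT_smul, k2, k3] at k1
  have k4 := (mkT_inj.1 (show _ = _ by cases ε <;> simpa only [inj, if_true, Prod.mk.injEq,
    true_and, and_true, Bool.false_eq_true, if_false] using k1)).2.1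
  have k5 := congrArg (fun A => (b⁻¹ * A * c) 0 0) k4
  simpa [Matrix.mul_assoc, m3_inv_mul h.db, m3_inv_mul h.dc, h.ne, mul_comm, eq_comm] using k5

theorem def_tr_act {ν₁ ν₂ l : F} (h : OSet Γ r σ θ d q e u) (hΦ : Dat6 Γ Φ)
    (hψ : Sim6 id false ν₁ ν₂ l ψ) (hT : T.det ≠ 0) (ha : ActA id false T ψ)
    (hS : Std Γ d h₁ h₂ (tr ψ Φ)) (hw : ∀ x, w (θ x) = star (w x)) (h2 : 0 < (w h₂).re) :
    ∀ φ ∈ Φ, ∀ a b c l m, TNF θ false true a b c l m φ → Def w a⁻¹ := by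
  intro φ hφ a b c l m k1
  obtain ⟨γ, -, k2⟩ := hΦ.ov.semi φ hφ
  obtain rfl := tnf_semi k1 k2
  have k0 := rl_of (os_θ h) hw
  have k3 : ψ.permCongr (ψ.symm.permCongr φ) = φ := ψ.permCongr.apply_symm_apply φ
  have k4 := det_map_ne hT γ
  obtain ⟨t, k5, k6⟩ := (hS.anti _ (symm_mem_tr.2 hφ) γ ((semi_congr hψ).1 (k3.symm ▸ k2))
    h.θd).unique (ActA.tr ha hT (a := a) (k3.symm ▸ k1.slA k2)) hS.det
    (by simp [hT, k4, k1.da])
  have k7 : a⁻¹ = (T.map γ)⁻¹ᵀ * (t⁻¹ • diagonal ![1, h₁⁻¹, h₂⁻¹]) * (T.map γ)⁻¹.map γ := by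
    have l1 : (T.map γ)⁻¹.map γ = T⁻¹ := by
      rw [m3_map_inv γ k4, ← map_mul_gl, h.θ2]
      rfl
    have l2 : (t • diagonal ![1, h₁, h₂])⁻¹ = t⁻¹ • (diagonal ![1, h₁⁻¹, h₂⁻¹] : M3 F) := by
      refine Matrix.inv_eq_left_inv ?_
      ext i j
      fin_cases i <;> fin_cases j <;> simp [k5, hS.n1, hS.n2]
    rw [l1, ← l2, ← k6, if_pos rfl, Matrix.mul_inv_rev, Matrix.mul_inv_rev, m3_inv_inv hT, inv_tr,
      m3_inv_inv k4, ← Matrix.mul_assoc, ← transpose_mul, m3_mul_inv k4, transpose_one,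
      Matrix.one_mul, Matrix.mul_assoc, m3_mul_inv hT, Matrix.mul_one]
  rw [k7, def_cong hw (by simp [k4]), def_smul (inv_ne_zero k5), LH.def_id,
    diagonal_map (map_zero w)]
  have k8 := hS.pos w k0
  have k9 : (fun i => w (![1, h₁⁻¹, h₂⁻¹] i)) =
      fun i => ((![1, (w h₁).re⁻¹, (w h₂).re⁻¹] i : ℝ) : ℂ) := by
    funext i
    fin_cases i
    · simp
    · simpa using k0.eq hS.f1
    · simpa using k0.eq hS.f2
  rw [k9, LH.def_diag fun i => by fin_cases i <;> simp [k8.ne', h2.ne']]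
  exact ⟨by simpa using k8, by simpa using mul_pos (inv_pos.2 k8) (inv_pos.2 h2)⟩

theorem cub_sum (S : M3 F) : cub (∑ i, cross (pP (Pi.single i 1)) (pQ (S.col i))) = -S.det := by
  have h : ∑ i, cross (pP (Pi.single i 1)) (pQ (S.col i)) = mkT 0 (-S) 0 := by
    simp only [pP, pQ, cross_mkT, Fin.sum_univ_three, mkT_add, mkT_inj, vecMulVec_mul_vecMulVec]
    refine ⟨by simp, ?_, by simp⟩
    ext i j
    fin_cases j <;> simp [vecMulVec_apply]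
  rw [h, cub_mkT]
  simp [det_neg]
  norm_num

theorem exists_S {ε : Bool} {ν₁ ν₂ m : F} {φ : Perm (W1 F)} (hs : Sim6 γ ε ν₁ ν₂ m φ)
    (hc : Cm true φ) (ha : ActA γ true a φ) (h0 : a.det ≠ 0) (h1 : a 0 0 = 1) :
    ∃ S : M3 F, (∀ i, φ (pP (Pi.single i 1), 0) = inj ε (pQ (S.col i))) ∧
      S.det = (if ε then ν₂ else ν₁) * a.det := by
  obtain ⟨b, c, l, k1, k2⟩ := tnf_of_act nfStmt hs hc ha h0
  obtain ⟨k3, k4, -⟩ := block_of_comm (ha.comm_hz h0 hc)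
  refine ⟨l 2 • c, fun i => by rw [tnf_pP k1 h1 k3 k4, map_single', mulVec_single_one], ?_⟩
  rw [det_smul, Fintype.card_fin, ← k2]
  linear_combination l 2 * k1.r2

theorem det_tr {ε : Bool} {ν₁ ν₂ m : F} {φ : Perm (W1 F)} (hψ : ChA T ψ) (t0 : T 0 0 = 1)
    (t1 : T * hz = hz * T) (hs : Sim6 γ ε ν₁ ν₂ m φ) (hc : Cm true φ) (h0 : a.det ≠ 0)
    (h1 : a 0 0 = 1) (ha : ActA γ true a (ψ.symm.permCongr φ)) :
    ∃ S : M3 F, (∀ i, φ (pP (Pi.single i 1), 0) = inj ε (pQ (S.col i))) ∧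
      S.det = (if ε then ν₂ else ν₁) * (a.det * (T.det * γ T.det)) := by
  obtain ⟨a', a1, a2, -, a4⟩ := exists_act nfStmt hs hc
  obtain ⟨S, k1, k2⟩ := exists_S hs hc a4 a1 a2
  have k3 : ψ.permCongr (ψ.symm.permCongr φ) = φ := ψ.permCongr.apply_symm_apply φ
  have k4 := det_map_ne hψ.det γ
  obtain ⟨t, -, k6⟩ := ha.unique (ActA.tr hψ.act hψ.det (a := a') (k3.symm ▸ a4)) h0
    (by simp [hψ.det, k4, a1])
  have k7 : a' = t • (T * a * (T.map γ)ᵀ) := by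
    rw [← Matrix.smul_mul, ← Matrix.mul_smul, ← k6, if_pos rfl, Matrix.mul_assoc T⁻¹,
      m3_mul_inv' hψ.det, Matrix.mul_assoc, ← transpose_mul, m3_mul_inv k4, transpose_one,
      Matrix.mul_one]
  have k8 := congrFun (congrFun k7 0) 0
  simp [Matrix.mul_apply, Fin.sum_univ_three, block_of_comm t1, t0, h1, a2] at k8
  refine ⟨S, k1, ?_⟩
  rw [k2, k7, ← k8, one_smul, det_mul, det_mul, det_transpose, m3_det_map]
  ring

theorem sim_tr {ε : Bool} {ν₁ ν₂ m : F} {φ : Perm (W1 F)} (hψ : ψ ∈ S6 (1 : Fˣ) 1 1)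
    (hs : Sim6 γ ε ν₁ ν₂ m φ) : Sim6 γ ε ν₁ ν₂ m (ψ.symm.permCongr φ) :=
  (((sim6_one.2 (mem_S6.1 hψ)).symm.comp hs).comp (sim6_one.2 (mem_S6.1 hψ))).cast (by simp)
    (by simp) (by simp) (by simp) (by simp)

/-- An isotropic vector of the first factor gives a unipotent element. -/
theorem not_ani (hHI : HIStmt) (h : OSet Γ r σ θ d q e u) (hΦ : Dat6 Γ Φ) (ht : Triv Φ (stb Γ d))
    (h0 : a.det ≠ 0) (h1 : a 0 0 = 1) (h2 : a * hz = hz * a)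
    (h3 : ∀ φ ∈ Φ, ∀ γ : Gl F, Semi γ φ → γ d = -d → ActA γ true a φ)
    (h4 : ∀ i j, Fx (stb Γ d) (a i j)) (h5 : ∀ i j, θ (a i j) = a j i) (h6 : Fx Γ a.det)
    (h7 : ∀ w, Rl Γ w → (w a.det).re < 0) : ¬ Ani (Pts (S6 1 1 1) Φ) := by
  have a7 : ∀ γ : Gl F, ∀ i j, γ (a⁻¹ i j) = (a.map γ)⁻¹ i j := fun γ i j => by
    rw [← m3_map_inv γ h0, map_apply]
  have a8 : ∀ i j, Fx (stb Γ d) (a⁻¹ i j) := fun i j γ hγ => by
    rw [a7, show a.map γ = a from Matrix.ext fun i j => h4 i j γ hγ]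
  have a9 : ∀ i j, θ (a⁻¹ i j) = a⁻¹ j i := fun i j => by
    rw [a7, show a.map θ = aᵀ from Matrix.ext h5, inv_tr, transpose_apply]
  obtain ⟨v, v0, v1, v2⟩ := hHI F (stb Γ d) θ (fun x hx => ⟨os_fxθ h hx, os_θθ h x⟩)
    ⟨d, fun _ hγ => hγ.2, h.θd ▸ (os_ne h).symm⟩ a⁻¹ a8 (Matrix.ext fun i j => (a9 i j).symm)
    fun w hw k => by
      have k1 : Rl Γ w := fun x hx => Complex.conj_eq_iff_im.1 (by
        simpa [hx θ (os_θ h)] using (hw x (hx.mono stb_le)).symm)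
      rw [LH.def_id, RM.def_iff (herm_map fun i j => by rw [← a9, hw _ (a8 _ _)])] at k
      rcases k with k | k
      · have k2 := RM.det_re_pos k
        rw [m3_det_map, m3_det_inv, map_inv₀, k1.eq h6, ← Complex.ofReal_inv, Complex.ofReal_re,
          inv_pos] at k2
        exact lt_asymm k2 (h7 w k1)
      · have k2 := k.diag_pos (i := 0)
        have k3 := congrFun (congrFun (m3_mul_inv h0) 0) 0
        simp [Matrix.mul_apply, Fin.sum_univ_three, block_of_comm h2, h1] at k3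
        simp [k3] at k2
        exact lt_asymm k2 zero_lt_one
  have k1 : (v ᵥ* a⁻¹) ⬝ᵥ (fun i => θ (v i)) = 0 := by rw [← dotProduct_mulVec, v2]
  set δ : M3 F := d • vecMulVec (fun i => θ (v i)) (v ᵥ* a⁻¹) with hδ
  have k2 : ∀ i j, δ i j = d * (θ (v i) * (v 0 * a⁻¹ 0 j + v 1 * a⁻¹ 1 j + v 2 * a⁻¹ 2 j)) :=
    fun i j => by simp [hδ, vecMulVec_apply, vecMul, dotProduct, Fin.sum_univ_three]
  refine not_ani_of_nilp hΦ.ov (slL_mem (δ := δ) ?_) ?_ (fun k => ?_) fun φ hφ x => ?_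
  · rw [hδ, trace_smul, trace_vecMulVec, dotProduct_comm, k1, smul_zero]
  · rw [pow_succ, sq, slL_sq, zero_mul]
    simp [hδ, vecMulVec_mul_vecMulVec, k1]
  · have k3 : δ = 0 := eq_of_slA fun x => by
      rw [← slL_apply, k]
      simp [slA_eq, Prod.mk_zero_zero]
    rw [hδ, smul_eq_zero, vecMulVec_eq_zero] at k3
    rcases k3 with k3 | k3 | k3
    · exact h.d0 k3
    · exact v0 (funext fun i => (_root_.map_eq_zero θ).1 (congrFun k3 i))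
    · exact v0 (by rw [← vecMul_one v, ← m3_inv_mul h0, ← vecMul_vecMul, k3, zero_vecMul])
  · obtain ⟨γ, k3, k4⟩ := hΦ.ov.semi φ hφ
    rw [slL_apply, slL_apply]
    rcases os_pm h k3 with k5 | k5
    · have k6 : γ ∈ stb Γ d := ⟨k3, k5⟩
      rw [(ht φ hφ γ k6 k4).one]
      congr 1
      ext i j
      simp only [map_apply, k2, map_mul, map_add, k5, os_fxθ h (v1 _) γ k6, v1 _ γ k6, a8 _ _ γ k6]
    · rw [h3 φ hφ γ k4 k5, if_pos rfl]
      congr 1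
      have k6 : -(δ.map γ)ᵀ = d • vecMulVec (a⁻¹ *ᵥ fun i => θ (v i)) v := by
        ext i j
        simp only [Matrix.neg_apply, transpose_apply, map_apply, k2, map_mul, map_add, k5,
          os_act h k3 k5 (os_fxθ h (v1 _)), os_act h k3 k5 (v1 _), os_act h k3 k5 (a8 _ _), a9,
          os_θθ h, Matrix.smul_apply, vecMulVec_apply, mulVec, dotProduct, Fin.sum_univ_three,
          smul_eq_mul]
        ring
      rw [k6, Matrix.mul_smul, Matrix.smul_mul, mul_vecMulVec, vecMulVec_mul, mulVec_mulVec,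
        m3_mul_inv h0, one_mulVec]

theorem gx_fam {n : ℕ} (N : Fin n → M3 F) (t : Fin n → F) (i : Fin 3) :
    gx 1 (∑ j, t j • N j) i = pP (Pi.single i 1) + ∑ j, t j • pR ((N j).col i) := by
  have h : ∀ S : Finset (Fin n), pR ((∑ j ∈ S, t j • N j).col i) =
      ∑ j ∈ S, t j • pR ((N j).col i) := fun S => by
    induction S using Finset.induction_on with
    | empty => exact pR_zero
    | insert j S hj ih =>
      rw [Finset.sum_insert hj, Finset.sum_insert hj, ← ih, ← pR_smul, ← pR_add]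
      rfl
  rw [gx, h]
  congr 2
  ext j
  rw [col_apply, Matrix.one_apply, Pi.single_apply]

omit [NumberField F] in
theorem pm_fam {V : Type} [AddCommGroup V] [Module F V] {n : ℕ} (c : V) (x : Fin n → V) :
    (PM F fun p : (Fin n → F) × (Fin n → F) => c + ∑ j, p.1 j • x j) ∧
      PM F fun p : (Fin n → F) × (Fin n → F) => c + ∑ j, p.2 j • x j :=
  ⟨(PM.const c).add (PM.sum _ fun j _ =>
      PM.smul ((PM.id (U := (Fin n → F) × (Fin n → F))).fst (LinearMap.proj j)) (PM.const _)),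
    (PM.const c).add (PM.sum _ fun j _ =>
      PM.smul ((PM.id (U := (Fin n → F) × (Fin n → F))).snd (LinearMap.proj j)) (PM.const _))⟩

/-- The neighbourhood of zero at the places which split. -/
theorem open_split (h : OSet Γ r σ θ d q e u) {ν₁ ν₂ m c : F} {τ : Perm (W1 F)}
    (ht : Sim6 θ false ν₁ ν₂ m τ) (hw : ∀ x, w (θ x) = star (w x)) (h1 : G₁.det ≠ 0)
    (h2 : (w (c * cub (∑ i, cross (pP (Pi.single i 1)) (fs6 τ false (pP (Pi.single i 1)))))).re < 0)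
    {n : ℕ} (N : Fin n → M3 F) : ∃ U : Set (Fin n → ℂ), IsOpen U ∧ U.Nonempty ∧
      ∀ t : Fin n → F, (∀ i, Fx (stb Γ d) (t i)) → (fun i => w (t i)) ∈ U →
        (G₁ + (∑ i, t i • N i)ᵀ * G₂ * (∑ i, t i • N i).map ⇑(σ * θ)).det ≠ 0 ∧
        (w (c * cub (∑ i, cross (gx 1 (∑ i, t i • N i) i)
          (fs6 τ false (gx 1 (∑ i, t i • N i) i))))).re < 0 := by
  obtain ⟨f, f1, f2⟩ := pf_cont w (PF.mul (PF.const c) (PM.acub (PM.sum Finset.univ fun i _ =>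
    (pm_fam (pP (Pi.single i 1)) fun j => pR ((N j).col i)).1.across
      (pm_fam (fs6 τ false (pP (Pi.single i 1))) fun j => fs6 τ false (pR ((N j).col i))).2)))
  obtain ⟨g, g1, g2⟩ := pf_cont w (pf_det ((PM.const G₁).add (PM.bilin (LinearMap.mul F (M3 F))
    (pm_fam 0 fun j => (N j)ᵀ * G₂).1 (pm_fam 0 fun j => (N j).map ⇑(σ * θ)).2)))
  refine ⟨{z | (f (z, star z)).re < 0} ∩ {z | g (z, star z) ≠ 0},
    (isOpen_lt (by fun_prop) continuous_const).inter (isOpen_ne_fun (by fun_prop) continuous_const),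
    ⟨0, ?_, ?_⟩, fun t t1 ⟨t2, t3⟩ => ⟨?_, ?_⟩⟩
  · have k := f2 0
    simp only [Prod.fst_zero, Prod.snd_zero, Pi.zero_apply, zero_smul, Finset.sum_const_zero,
      add_zero, map_zero] at k
    rw [k] at h2
    rwa [Set.mem_ofPred_eq, star_zero]
  · have k := g2 0
    simp only [Prod.fst_zero, Prod.snd_zero, Pi.zero_apply, zero_smul, Finset.sum_const_zero,
      add_zero, map_zero] at k
    have k1 := (_root_.map_ne_zero w).2 h1
    rw [k] at k1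
    rwa [Set.mem_ofPred_eq, star_zero]
  · have k := g2 (t, fun i => θ (t i))
    simp only [hw, zero_add, LinearMap.mul_apply'] at k
    have k1 : (∑ i, t i • N i).map ⇑(σ * θ) = ∑ i, θ (t i) • (N i).map ⇑(σ * θ) := by
      ext i j
      simp only [map_apply, Matrix.sum_apply, Matrix.smul_apply, smul_eq_mul, map_sum, map_mul,
        os_act h (os_s h) (os_sd h) (t1 _)]
    rw [k1, transpose_sum, Finset.sum_mul, ← _root_.map_ne_zero w]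
    simp only [transpose_smul, Matrix.smul_mul, k]
    exact t3
  · have k := f2 (t, fun i => θ (t i))
    simp only [hw] at k
    simp only [gx_fam, ht.pr.s1.add, ht.pr.s1.sum, ht.pr.s1.smul, k]
    exact t2

theorem aux_std (hHI : HIStmt) (h : OSet Γ r σ θ d q e u) (hc : Cfg Γ r q u Φ)
    (hS : Std Γ d h₁ h₂ Φ) (h0 : φ₀ ∈ Φ) (hm : Hm (σ * θ) h₁ h₂ ν G₁ G₂ φ₀)
    (h1 : ¬ ∀ x, hq φ₀ x x = 0 → x = 0)
    (h2 : ∀ w : F →+* ℂ, (∀ x, w (θ x) = star (w x)) → (w h₂).re < 0) :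
    ¬ Ani (Pts (S6 1 1 1) Φ) := by
  obtain ⟨τ, t1, t2⟩ := hc.dat.ov.onto θ (os_θ h)
  obtain ⟨ν₁, _, _, t3⟩ := cfg_false hc t1 t2 h.θq
  have d1 : G₁.det ≠ 0 := hm.d1 ▸ mul_ne_zero hm.ne (mul_ne_zero hS.n1 hS.n2)
  obtain ⟨n, N, n1, n2⟩ := exists_fam hc.dat hS
  let C : M3 F → (F →+* ℂ) → Prop := fun M w => (G₁ + Mᵀ * G₂ * M.map ⇑(σ * θ)).det ≠ 0 ∧
    (((∀ x, w ((σ * θ) x) = star (w x)) ∧
      (w ν).re * (w (G₁ + Mᵀ * G₂ * M.map ⇑(σ * θ)).det).re < 0) ∨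
    (∀ x, w (θ x) = star (w x)) ∧
      (w (-ν₁⁻¹ * cub (∑ i, cross (gx 1 M i) (fs6 τ false (gx 1 M i))))).re < 0)
  have k : ∀ w : F →+* ℂ, ∃ U : Set (Fin n → ℂ), Rl Γ w → (IsOpen U ∧ U.Nonempty) ∧
      ∀ t : Fin n → F, (∀ i, Fx (stb Γ d) (t i)) → (fun i => w (t i)) ∈ U →
        C (∑ i, t i • N i) w := fun w => by
    by_cases hw : Rl Γ w
    swap
    · exact ⟨∅, fun k => absurd k hw⟩
    rcases hw.type h with k | k
    · obtain ⟨S, s1, s2⟩ := exists_S t3 ((hS.lv3 hc.dat).2 τ t1 θ t2 h.θd)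
        (hS.anti τ t1 θ t2 h.θd) hS.det (by simp)
      have s3 : ∀ i, fs6 τ false (pP (Pi.single i 1)) = pQ (S.col i) := fun i =>
        congrArg Prod.fst (s1 i)
      obtain ⟨U, u1, u2, u3⟩ := open_split (G₂ := G₂) (c := -ν₁⁻¹) h t3 k d1 (by
        simp only [s3, cub_sum, s2, neg_mul_neg, Bool.false_eq_true, if_false,
          inv_mul_cancel_left₀ t3.ne.1, det_diagonal, Fin.prod_univ_three, cons_val, one_mul,
          map_mul]
        rw [hw.eq hS.f1, Complex.re_ofReal_mul]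
        exact mul_neg_of_pos_of_neg (hS.pos w hw) (h2 w k)) N
      exact ⟨U, fun _ => ⟨⟨u1, u2⟩, fun t l1 l2 => ⟨(u3 t l1 l2).1, .inr ⟨k, (u3 t l1 l2).2⟩⟩⟩⟩
    · obtain ⟨k1, k2, k3, -, k5⟩ := hm.pos hS (os_s h) k
      obtain ⟨O, o1, o2, o3⟩ := (RM.ra _ _ _ k1 k2 k5 k3).resolve_left fun l =>
        h1 (hm.aniso hS (os_s h) k l.1 l.2)
      refine ⟨_, fun _ => ⟨open_fam n1 w o1 o2, fun t _ l2 => ?_⟩⟩
      have l3 := o3 _ l2
      rw [← map_fam, ← map_G' k, m3_det_map] at l3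
      exact ⟨fun l4 => by simp [l4] at l3, .inl ⟨k, l3⟩⟩
  choose U hU using k
  obtain ⟨M, hM, m1, m2⟩ : ∃ M : M3 F,
      (∀ φ ∈ Φ, ∀ γ ∈ Γ, γ d = d → Semi γ φ → ∀ v, φ (ex M v) = ex M (φ v)) ∧
      (G₁ + Mᵀ * G₂ * M.map ⇑(σ * θ)).det ≠ 0 ∧
      ∀ w, Rl Γ w → ∃ w₀, Rl Γ w₀ ∧ (∀ x, Fx Γ x → w₀ x = w x) ∧ C M w₀ := by
    by_cases hw : ∃ w, Rl Γ w
    swap
    · exact ⟨0, fun φ _ _ _ _ _ v => by simp [ex_zero], by simpa using d1,
        fun w k => absurd ⟨w, k⟩ hw⟩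
    obtain ⟨t, l1, l2⟩ := exists_approx h U fun w k => (hU w k).1
    have l3 : ∀ w, Rl Γ w → ∃ w₀, Rl Γ w₀ ∧ (∀ x, Fx Γ x → w₀ x = w x) ∧
        C (∑ i, t i • N i) w₀ := fun w k =>
      (l2 w k).imp fun w₀ l => ⟨l.1, l.2.1, (hU w₀ l.1).2 t l1 l.2.2⟩
    obtain ⟨w, hw⟩ := hw
    obtain ⟨w₀, -, -, l4, -⟩ := l3 w hw
    exact ⟨_, n2 t l1, l4, l3⟩
  obtain ⟨ψ, p1, p2, p3, p4⟩ := move_M h hc hS h0 hm hM m1
  obtain ⟨T, ψ', q1, q2, q3, q4, -, q6⟩ := n0 nfStmt p3.dat stb_le (lv3_stb p4)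
  obtain ⟨_, _, _, q7⟩ := q1.sim
  have q8 := p3.dat.tr q7
  obtain ⟨a, a1, a2, a3, a4, a5, a6⟩ := exists_anti h q8 q6 (grOn_tr q7 q4 p4.2)
  have a7 : Fx Γ a.det := os_fx h
    (fun γ hγ => by simp only [det_fin_three, map_add, map_sub, map_mul, a5 _ _ γ hγ])
    (by simp only [det_fin_three, map_add, map_sub, map_mul, a6]; ring)
  have key : ∀ φ ∈ Φ, ∀ (γ : Gl F) ε ν₁ ν₂ m, Sim6 γ ε ν₁ ν₂ m φ → γ d = -d → ∃ S : M3 F,
      (∀ i, ψ.symm.permCongr φ (pP (Pi.single i 1), 0) = inj ε (pQ (S.col i))) ∧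
      S.det = (if ε then ν₂ else ν₁) * (a.det * (T.det * γ T.det)) := fun φ hφ γ ε _ _ _ l1 l2 =>
    det_tr q1 q2 q3 (sim_tr p1 l1) (p4.2 _ (symm_mem_tr.2 hφ) γ (sim_tr p1 l1).semi l2) a1 a2
      (a4 _ (symm_mem_tr.2 (symm_mem_tr.2 hφ)) γ
        (Semi.lin_comp q7.semi.symm_lin ((sim_tr p1 l1).semi.comp_lin q7.semi) :) l2)
  refine fun hA => not_ani hHI h q8 q6 a1 a2 a3 a4 a5 a6 a7 (fun w hw => ?_)
    ((uiso_tr6 q7 _).symm.ani ((uiso_tr6 (mem_S6.1 p1) _).symm.ani hA))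
  obtain ⟨w₀, l1, l2, -, l3⟩ := m2 w hw
  have l4 : 0 < Complex.normSq (w₀ T.det) := Complex.normSq_pos.2 ((_root_.map_ne_zero _).2 q1.det)
  rw [← l2 _ a7]
  rcases l3 with ⟨l3, l5⟩ | ⟨l3, l5⟩
  · obtain ⟨_, _, k0⟩ := hm.sim
    obtain ⟨S, s1, s2⟩ := key φ₀ h0 _ _ _ _ _ k0 (os_sd h)
    obtain ⟨-, -, -, k4, k5⟩ := hm.pos hS (os_s h) l3
    have s3 : G₁ + Mᵀ * G₂ * M.map ⇑(σ * θ) = S := Matrix.ext fun i j => by
      have s3 := gram_tr (φ := ψ.symm.permCongr φ₀) p1 p2 i j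
      rw [show ψ.permCongr (ψ.symm.permCongr φ₀) = φ₀ from ψ.permCongr.apply_symm_apply φ₀,
        hm.gram, gramP, of_apply, s1] at s3
      simpa [inj, tf_pP_pQ] using s3.symm
    rw [s3, s2, if_pos rfl, map_mul, map_mul, map_mul, l3, Complex.star_def, Complex.mul_conj,
      k4, l1.eq a7] at l5
    norm_cast at l5
    by_contra l6
    have l7 := mul_nonneg (mul_self_nonneg (w₀ ν).re) (mul_nonneg (not_lt.1 l6) l4.le)
    rw [mul_assoc] at l7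
    exact not_lt.2 l7 l5
  · obtain ⟨S, s1, s2⟩ := key τ t1 _ _ _ _ _ t3 h.θd
    have hs := sim6_one.2 (mem_S6.1 p1)
    have s3 : ∀ i, cross (gx 1 M i) (fs6 τ false (gx 1 M i)) =
        sn6 ψ false (cross (pP (Pi.single i 1)) (pQ (S.col i))) := fun i => by
      have s3 : fs6 ψ false (pP (Pi.single i 1)) = gx 1 M i :=
        congrArg Prod.fst ((p2 _).trans (ex_gx M i))
      have s4 := congrArg (fun v => (ψ v).1) (s1 i)
      simp only [permCongr_apply, symm_symm, apply_symm_apply, p2, ex_gx] at s4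
      rw [← one_smul F (sn6 _ _ _), ← hs.pr.cross, one_smul, s3]
      exact congrArg _ s4
    simp only [s3, ← hs.pr.s2.sum, hs.pr.c2, cub_sum, s2, one_mul, AlgEquiv.one_apply, neg_mul_neg,
      Bool.false_eq_true, if_false, inv_mul_cancel_left₀ t3.ne.1, map_mul, l3, Complex.star_def,
      Complex.mul_conj, Complex.re_mul_ofReal] at l5
    exact neg_of_mul_neg_left l5 l4.le

/-- (AUX) -/
theorem auxStmt (hHI : HIStmt) : AuxStmt := by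
  intro F _ _ Γ r σ θ d q e u Φ h hc hL _ hA
  obtain ⟨ψ, T, h₁, h₂, ⟨_, _, _, k1⟩, k2, k3, k4, k5⟩ := exists_std h hc hL
  obtain ⟨φ₀, h0, ν, G₁, G₂, hm⟩ := exists_hm h k4 k5
  by_contra hcon
  rw [Compact, not_or] at hcon
  obtain ⟨_, _, k0⟩ := hm.sim
  refine aux_std hHI h k4 k5 h0 hm (fun k => hcon.1 (aniso_tr hc.dat k1 h0 k0.semi k))
    (fun w hw => ((rl_of (os_θ h) hw).ne k5.f2 k5.n2).lt_or_gt.resolve_right fun k => ?_)
    ((uiso_tr6 k1 _).symm.ani hA)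
  exact hcon.2 ⟨w, hw, def_tr_act h hc.dat k1 k2 k3 k5 hw k⟩

end Vale.Agent.P011N.Cl.MV
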