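import Vale.Agent.P011N.Cl.MV.N1
import Vale.Agent.P011N.Cl.TC.NM

/-!
The hermitian form and its Gram matrices.
-/

namespace Vale.Agent.P011N.Cl.MV

open Vale.Agent.P011.MPQ Vale.Agent.P011.D4 Vale.Agent.P011.D4.Oct Vale.Agent.P011.E6 Equiv Matrix
open Vale.Agent.P011.E6O Vale.Agent.P011.E6.Alb

section gen

variable {F : Type} [Field F]

/-- The form of an outer element. -/
def hq (φ : W1 F → W1 F) (x y : J1 F) : F := tf x (φ (y, 0)).2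

/-- The vectors with the given coordinates. -/
def gx (P Q : M3 F) (i : Fin 3) : J1 F := pP (P.col i) + pR (Q.col i)

variable [CharZero F] {γ s : Gl F} {ε : Bool} {a b c G₁ G₂ : M3 F} {l : Fin 3 → F}
  {m h₁ h₂ ν : F} {φ : W1 F → W1 F}

theorem tnf_pP (h : TNF γ ε true a b c l m φ) (h0 : a 0 0 = 1) (h1 : a 0 1 = 0) (h2 : a 0 2 = 0)
    (β : Fin 3 → F) : φ (pP β, 0) = inj ε (pQ ((l 2 • c) *ᵥ fun i => γ (β i))) := by
  have k : Pi.single 0 1 ᵥ* a = Pi.single 0 1 := by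
    ext i
    fin_cases i <;> simp [h0, h1, h2]
  have k' : Pi.single 0 1 ᵥ* a⁻¹ = Pi.single 0 1 := by
    conv_lhs => rw [← k, vecMul_vecMul, m3_mul_inv h.da, vecMul_one]
  rw [pP, h.fst]
  simp only [tp, if_true, Matrix.map_zero _ (map_zero γ), transpose_zero, Matrix.mul_zero,
    Matrix.zero_mul, smul_zero, map_vecMulVec', map_single', transpose_vecMulVec, mul_vecMulVec,
    vecMulVec_mul, k', pQ, smul_mulVec, smul_vecMulVec]

theorem tnf_pR (h : TNF γ ε true (diagonal ![1, h₁, h₂]) b c l m φ) (z : Fin 3 → F) :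
    φ (pR z, 0) = inj ε (pS (((l 0 * h₁) • b⁻¹ᵀ) *ᵥ fun i => γ (z i))) := by
  have k : (diagonal ![1, h₁, h₂] : M3 F) *ᵥ Pi.single 1 1 = h₁ • Pi.single 1 1 := by
    ext i
    fin_cases i <;> simp
  rw [pR, h.fst]
  simp only [tp, if_true, Matrix.map_zero _ (map_zero γ), transpose_zero, Matrix.mul_zero,
    Matrix.zero_mul, smul_zero, map_vecMulVec', map_single', transpose_vecMulVec, mul_vecMulVec,
    vecMulVec_mul, k, pS, smul_mulVec, smul_vecMulVec, vecMulVec_smul, mulVec_transpose,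
    Matrix.smul_mul, smul_smul]

theorem tnf_app (h : TNF γ ε true (diagonal ![1, h₁, h₂]) b c l m φ) (hs : Semi γ φ)
    (β z : Fin 3 → F) : φ (pP β + pR z, 0) = inj ε (pQ ((l 2 • c) *ᵥ fun i => γ (β i)) +
      pS (((l 0 * h₁) • b⁻¹ᵀ) *ᵥ fun i => γ (z i))) := by
  rw [inj_add', ← tnf_pP h (by simp) (by simp) (by simp), ← tnf_pR h, ← hs.add, Prod.mk_add_mk,
    add_zero]

theorem tf_PR (β z ζ η : Fin 3 → F) : tf (pP β + pR z) (pQ ζ + pS η) = β ⬝ᵥ ζ + z ⬝ᵥ η := by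
  simp [pP, pR, pQ, pS, mkT_add, tf_mkT, vecMulVec_mul_vecMulVec]

theorem e01_app (ζ η : Fin 3 → F) : sl1 (single 0 1 1) (pQ ζ + pS η) = pP η + pR (-ζ) := by
  simp only [pP, pR, pQ, pS, mkT_add, sl1_mkT, mkT_inj, add_zero, zero_add, mul_vecMulVec,
    vecMulVec_mul, neg_vecMulVec, true_and]
  constructor <;> congr 2 <;> ext i <;> fin_cases i <;> simp

theorem e10_app (β z : Fin 3 → F) : sl1 (single 1 0 1) (pP β + pR z) = pQ (-z) + pS β := by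
  simp only [pP, pR, pQ, pS, mkT_add, sl1_mkT, mkT_inj, add_zero, zero_add, mul_vecMulVec,
    vecMulVec_mul, neg_vecMulVec, true_and]
  constructor <;> congr 2 <;> ext i <;> fin_cases i <;> simp

theorem ex_gx (M : M3 F) (i : Fin 3) : ex M (pP (Pi.single i 1), 0) = (gx 1 M i, 0) := by
  rw [ex_pP0, gx, mulVec_single_one]
  congr 3
  ext j
  rw [col_apply, Matrix.one_apply, Pi.single_apply]

/-- The normalised outer element with the Gram matrices of its form. -/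
structure Hm (s : Gl F) (h₁ h₂ ν : F) (G₁ G₂ : M3 F) (φ : Perm (W1 F)) : Prop where
  sim : ∃ ν₁ m, Sim6 s true ν₁ ν m φ
  her : ∀ x y, hq φ y x = s (hq φ x y)
  app : ∀ β z, φ (pP β + pR z, 0) =
    (0, pQ (G₁ *ᵥ fun i => s (β i)) + pS (G₂ *ᵥ fun i => s (z i)))
  d1 : G₁.det = ν * (h₁ * h₂)
  d2 : G₁.det * G₂.det = ν ^ 2 * h₁ ^ 3
  val : ∀ X Y Z, hq φ (mkT X Y Z) (mkT X Y Z) =
    (X * G₁ * (X.map s)ᵀ * (diagonal ![1, h₁, h₂])⁻¹).trace +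
    h₁⁻¹ * (Z * diagonal ![1, h₁, h₂] * (Z.map s)ᵀ * G₂ᵀ).trace +
    ν * h₁ * (Y * G₂ᵀ⁻¹ * (Y.map s)ᵀ * G₁⁻¹).trace

variable {φ : Perm (W1 F)}

theorem Hm.gram (h : Hm s h₁ h₂ ν G₁ G₂ φ) (P Q P' Q' : M3 F) (i j : Fin 3) :
    hq φ (gx P Q i) (gx P' Q' j) = (Pᵀ * G₁ * P'.map s + Qᵀ * G₂ * Q'.map s) i j := by
  rw [hq, gx, gx, h.app, tf_PR]
  simp only [Matrix.add_apply, Matrix.mul_apply, dotProduct, mulVec, Fin.sum_univ_three, col_apply,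
    transpose_apply, map_apply]
  ring

theorem Hm.her1 (h : Hm s h₁ h₂ ν G₁ G₂ φ) (i j : Fin 3) : G₁ j i = s (G₁ i j) := by
  simpa [h.gram] using h.her (gx 1 0 i) (gx 1 0 j)

theorem Hm.her2 (h : Hm s h₁ h₂ ν G₁ G₂ φ) (i j : Fin 3) : G₂ j i = s (G₂ i j) := by
  simpa [h.gram] using h.her (gx 0 1 i) (gx 0 1 j)

theorem Hm.ne (h : Hm s h₁ h₂ ν G₁ G₂ φ) : ν ≠ 0 := by
  obtain ⟨_, _, h1⟩ := h.sim
  exact h1.ne.2.1

theorem hm_of {ν₁ : F} (hs : Sim6 s true ν₁ ν m φ) (hh : ∀ x y, hq φ y x = s (hq φ x y))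
    (h : TNF s true true (diagonal ![1, h₁, h₂]) b c l m φ) (hl : l 0 * l 1 * l 2 = ν) :
    Hm s h₁ h₂ ν (l 2 • c) ((l 0 * h₁) • b⁻¹ᵀ) φ := by
  have k0 := h.ne 0
  have k1 := h.ne 1
  have k2 := h.ne 2
  have k3 := h.db
  have k4 := h.da
  have k5 := h.r2
  rw [det_diagonal, Fin.prod_univ_three] at k4 k5
  simp only [cons_val, one_mul] at k4 k5
  have k6 := left_ne_zero_of_mul k4
  refine ⟨⟨_, _, hs⟩, hh, tnf_app h hs.semi, ?_, ?_, fun X Y Z => ?_⟩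
  · rw [det_smul, Fintype.card_fin, ← hl]
    linear_combination l 2 * k5
  · rw [det_smul, det_smul, det_transpose, m3_det_inv, Fintype.card_fin, ← hl]
    field_simp
    linear_combination -h.r1
  · rw [hq, h.fst, inj, if_pos rfl, tf_mkT, transpose_smul, transpose_transpose,
      m3_inv_smul (mul_ne_zero k0 k6) (by simp [k3]), m3_inv_inv k3, m3_inv_smul k2 h.dc, ← hl]
    simp only [tp, if_true, Matrix.mul_smul, Matrix.smul_mul, trace_smul, smul_eq_mul,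
      Matrix.mul_assoc]
    field_simp
    ring

end gen

variable {F : Type} [Field F] [NumberField F] {Γ : Subgroup (Gl F)} {r σ θ s γ : Gl F}
  {d q e h₁ h₂ ν : F} {u G₁ G₂ : M3 F} {Φ : Subgroup (Perm (W1 F))} {φ₀ : Perm (W1 F)}

theorem cfg_true (hc : Cfg Γ r q u Φ) (hq : q ≠ 0) {φ : Perm (W1 F)} (hφ : φ ∈ Φ) (hs : Semi γ φ)
    (h : γ q = -q) : ∃ ν₁ ν₂ m, Sim6 γ true ν₁ ν₂ m φ := by
  obtain ⟨ε, _, _, _, k⟩ := hc.dat.sim_of hφ hs
  cases ε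
  · have k1 := (hc.inn φ hφ γ hs).1 (k.inner_iff.2 rfl)
    exact absurd (by linear_combination (1 / 2 : F) * (h - k1)) hq
  · exact ⟨_, _, _, k⟩

theorem cfg_false (hc : Cfg Γ r q u Φ) {φ : Perm (W1 F)} (hφ : φ ∈ Φ) (hs : Semi γ φ)
    (h : γ q = q) : ∃ ν₁ ν₂ m, Sim6 γ false ν₁ ν₂ m φ := by
  obtain ⟨ε, _, _, _, k⟩ := hc.dat.sim_of hφ hs
  obtain rfl := k.inner_iff.1 ((hc.inn φ hφ γ hs).2 h)
  exact ⟨_, _, _, k⟩

theorem exists_her (h : OSet Γ r σ θ d q e u) (hc : Cfg Γ r q u Φ) :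
    ∃ φ ∈ Φ, Semi (⇑(σ * θ)) φ ∧ ∀ x y, hq φ y x = (σ * θ) (hq φ x y) := by
  obtain ⟨φ, k1, k2⟩ := hc.dat.ov.onto _ (os_s h)
  obtain ⟨_, _, m, k3⟩ := cfg_true hc h.q0 k1 k2 (os_sq h)
  have hss : ∀ x, (σ * θ) ((σ * θ) x) = x := fun x => by
    rw [← AlgEquiv.mul_apply, os_ss h, AlgEquiv.one_apply]
  have hsd := os_sd h
  obtain ⟨t, t', k4⟩ := mem_Z6.1 (hc.dat.lin _ (mul_mem k1 k1) (by
    have := k2.mul k2
    rwa [os_ss h] at this))
  generalize σ * θ = s at *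
  have k5 : ∀ x y, hq φ y x = m / t * s (hq φ x y) := fun x y => by
    have l1 := k3.pr.tf (sn6 φ true y) x
    have l2 := congrArg Prod.fst (k4 (y, 0))
    rw [Perm.mul_apply, k3.inl_true, k3.inr_true] at l2
    rw [show fs6 φ true (sn6 φ true y) = t • y from l2, tf_smul_left, tf_comm _ x] at l1
    rw [div_mul_eq_mul_div, eq_div_iff (ne_of_scal6 k4).1, mul_comm]
    exact l1
  have k6 : m / t * s (m / t) = 1 := by
    obtain ⟨y, hy⟩ := k3.pr.b2.2 e1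
    have l1 : hq φ e1 y = 1 := by
      rw [hq, show (φ (y, 0)).2 = e1 from hy, tf_e1]
      rfl
    have l2 := k5 y e1
    rw [k5 e1 y, l1, map_one, mul_one] at l2
    exact l2.symm
  obtain ⟨c, k7, k8⟩ : ∃ c : F, c ≠ 0 ∧ c * (m / t) = s c := by
    by_cases k7 : 1 + s (m / t) = 0
    · refine ⟨d, h.d0, ?_⟩
      rw [hsd]
      linear_combination d * (m / t) * k7 - d * k6
    · exact ⟨_, k7, by rw [map_add, map_one, hss]; linear_combination k6⟩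
  have k9 := zs6_mem (A := (1 : Fˣ)) (B := 1) (C := 1) 1 c one_ne_zero k7
  have k10 : ∀ x y, hq (zs6 1 c one_ne_zero k7 * φ : Perm (W1 F)) x y = c * hq φ x y := fun x y =>
    tf_smul_right _ _ _
  refine ⟨_, mul_mem (hc.dat.sat k9) k1, (Semi.lin_comp (semi_Z6 k9) k2 :), fun x y => ?_⟩
  rw [k10, k10, k5 x y, map_mul, ← k8, mul_assoc]

theorem exists_hm (h : OSet Γ r σ θ d q e u) (hc : Cfg Γ r q u Φ) (hS : Std Γ d h₁ h₂ Φ) :
    ∃ φ ∈ Φ, ∃ ν G₁ G₂, Hm (σ * θ) h₁ h₂ ν G₁ G₂ φ := by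
  obtain ⟨φ, k1, k2, k3⟩ := exists_her h hc
  obtain ⟨_, ν, _, k4⟩ := cfg_true hc h.q0 k1 k2 (os_sq h)
  obtain ⟨b, c, l, k5, k6⟩ := tnf_of_act nfStmt k4 ((hS.lv3 hc.dat).2 φ k1 _ k2 (os_sd h))
    (hS.anti φ k1 _ k2 (os_sd h)) hS.det
  exact ⟨φ, k1, ν, _, _, hm_of k4 k3 k5 k6⟩

/-- The inner elements are similitudes of the form. -/
theorem hq_mul {ν₁ ν₂ m ν₁' ν₂' m' : F} (hΦ : Dat6 Γ Φ) (h0 : φ₀ ∈ Φ)
    (hs : Sim6 s true ν₁ ν₂ m φ₀) {τ : Perm (W1 F)} (hτ : τ ∈ Φ)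
    (ht : Sim6 γ false ν₁' ν₂' m' τ) (hc : s * γ = γ * s) :
    ∃ μ : F, μ ≠ 0 ∧ ∀ x y, hq φ₀ (fs6 τ false x) (fs6 τ false y) = μ * γ (hq φ₀ x y) := by
  obtain ⟨z, k1, k2⟩ := hΦ.exists_Z6 (mul_mem hτ h0) (mul_mem h0 hτ) (ht.semi.mul hs.semi)
    (hc ▸ hs.semi.mul ht.semi)
  obtain ⟨t, t', k3⟩ := mem_Z6.1 k1
  refine ⟨t' * m', mul_ne_zero (ne_of_scal6 k3).2 ht.ne.2.2, fun x y => ?_⟩
  rw [hq, ← ht.inl, ← Perm.mul_apply, k2, Perm.mul_apply, k3, Perm.mul_apply, hs.inl_true, ht.inr,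
    tf_smul_right, ht.pr.tf, hq, hs.inl_true, mul_assoc]

/-- A finite family of rational matrices which spans the space of all matrices. -/
theorem exists_fam (hΦ : Dat6 Γ Φ) (hS : Std Γ d h₁ h₂ Φ) : ∃ (n : ℕ) (N : Fin n → M3 F),
    Submodule.span F (Set.range N) = ⊤ ∧ ∀ t : Fin n → F, (∀ i, Fx (stb Γ d) (t i)) →
      ∀ φ ∈ Φ, ∀ γ ∈ Γ, γ d = d → Semi γ φ → ∀ v,
        φ (ex (∑ i, t i • N i) v) = ex (∑ i, t i • N i) (φ v) := by
  have k0 := hΦ.res (stb_le (d := d))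
  have k1 := span_fxM k0 fun φ ⟨l1, γ, l2, l3⟩ => by
    obtain ⟨ε, _, _, m, l4⟩ := hΦ.sim_of l1 l3
    obtain ⟨b, c, l, l5, -⟩ := tnf_of_act nfStmt l4 ((hS.lv3 hΦ).1 φ l1 γ l3 l2.2)
      (hS.triv φ l1 γ l2 l3) (by simp)
    exact ⟨γ, ε, b, c, l, m, l3, l5⟩
  obtain ⟨T, k2, k3⟩ := (Submodule.fg_span_iff_fg_span_finset_subset _).1
    (k1 ▸ Module.Finite.fg_top (R := F) (M := M3 F))
  refine ⟨T.card, fun i => T.equivFin.symm i, ?_, fun t ht φ hφ γ hγ hd hs v => ?_⟩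
  · rw [← k1, k3]
    congr 1
    exact (T.equivFin.symm.surjective.range_comp Subtype.val).trans Subtype.range_coe
  · have k4 := fxM_ex (sum_mem fun i (_ : i ∈ Finset.univ) =>
      fxM_smul (k2 (T.equivFin.symm i).2) (ht i))
    exact Equiv.congr_fun (k4.2 φ ⟨hφ, γ, ⟨hγ, hd⟩, hs⟩) v

omit [NumberField F] in
/-- The preimage of an open set of matrices. -/
theorem open_fam {n : ℕ} {N : Fin n → M3 F} (hN : Submodule.span F (Set.range N) = ⊤)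
    (w : F →+* ℂ) {O : Set RM.MC} (h1 : IsOpen O) (h2 : O.Nonempty) :
    IsOpen {z : Fin n → ℂ | ∑ i, z i • (N i).map w ∈ O} ∧
      {z : Fin n → ℂ | ∑ i, z i • (N i).map w ∈ O}.Nonempty := by
  refine ⟨h1.preimage (by fun_prop), ?_⟩
  obtain ⟨M, hM⟩ := h2
  have k : M ∈ Submodule.span ℂ (Set.range fun i => (N i).map w) := by
    rw [matrix_eq_sum_single M]
    refine sum_mem fun i _ => sum_mem fun j _ => ?_
    obtain ⟨c, hc⟩ := (Submodule.mem_span_range_iff_exists_fun F).1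
      (hN.ge (Submodule.mem_top (x := single i j 1)))
    refine (Submodule.mem_span_range_iff_exists_fun ℂ).2 ⟨fun k => M i j * w (c k), ?_⟩
    ext i' j'
    have k1 := congrArg w (congrFun (congrFun hc i') j')
    simp only [Matrix.sum_apply, Matrix.smul_apply, smul_eq_mul, map_sum, map_mul, map_apply,
      single_apply, apply_ite w, map_one, map_zero, mul_assoc, ← Finset.mul_sum] at k1 ⊢
    rw [k1, mul_ite, mul_one, mul_zero]
  obtain ⟨z, rfl⟩ := (Submodule.mem_span_range_iff_exists_fun ℂ).1 k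
  exact ⟨z, hM⟩

omit [NumberField F] in
theorem map_fam {n : ℕ} (N : Fin n → M3 F) (w : F →+* ℂ) (t : Fin n → F) :
    (∑ i, t i • N i).map w = ∑ i, w (t i) • (N i).map w := by
  ext i j
  simp [Matrix.sum_apply]

end Vale.Agent.P011N.Cl.MV
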