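import Vale.Agent.P011N.Cl.MV.Gram
import Vale.Agent.P011N.Cl.LH.Cx

/-!
The types can be matched.
-/

namespace Vale.Agent.P011N.Cl.MV

open Vale.Agent.P011.MPQ Vale.Agent.P011.D4 Vale.Agent.P011.D4.Oct Vale.Agent.P011.E6 Equiv Matrix
open Vale.Agent.P011.E6O Vale.Agent.P011.E6.Alb

variable {F : Type} [Field F] [NumberField F] {Γ : Subgroup (Gl F)} {r σ θ s γ : Gl F}
  {d q e h₁ h₂ ν : F} {u G G₁ G₂ M P : M3 F} {Φ : Subgroup (Perm (W1 F))} {φ₀ : Perm (W1 F)}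
  {w : F →+* ℂ}

theorem map_cj (hw : ∀ x, w (s x) = star (w x)) (P : M3 F) :
    (P.map s).map w = (P.map w).map star := Matrix.ext fun _ _ => hw _

theorem def_cong (hw : ∀ x, w (s x) = star (w x)) (hP : P.det ≠ 0) :
    Def w (Pᵀ * G * P.map s) ↔ Def w G := by
  rw [LH.def_id, LH.def_id w G, Matrix.map_mul, Matrix.map_mul, map_cj hw, transpose_map]
  exact LH.def_cong (P := (P.map w)ᵀ) (by
    rw [det_transpose, m3_det_map]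
    exact (_root_.map_ne_zero w).2 hP)

omit [NumberField F] in
theorem def_smul {c : F} (hc : c ≠ 0) : Def w (c • G) ↔ Def w G := by
  rw [LH.def_id, LH.def_id w G, show (c • G).map w = w c • G.map w from
    Matrix.ext fun _ _ => map_mul w _ _, LH.def_smul ((_root_.map_ne_zero w).2 hc)]

omit [NumberField F] in
theorem def_tr : Def w Gᵀ ↔ Def w G := by
  rw [LH.def_id, LH.def_id w G, transpose_map, LH.def_transpose]

theorem os_u (h : OSet Γ r σ θ d q e u) : u.det ≠ 0 := by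
  rcases h.cyc with ⟨-, rfl⟩ | ⟨-, -, -, h1, rfl⟩
  · simp
  · simpa [uu, det_fin_three] using (h1 0).symm

theorem Hm.herG (h : Hm s h₁ h₂ ν G₁ G₂ φ₀) (M : M3 F) :
    (G₁ + Mᵀ * G₂ * M.map s).map s = (G₁ + Mᵀ * G₂ * M.map s)ᵀ := by
  ext i j
  simpa [h.gram] using (h.her (gx 1 M i) (gx 1 M j)).symm

theorem gram_r (h : OSet Γ r σ θ d q e u) (hc : Cfg Γ r q u Φ) (h0 : φ₀ ∈ Φ)
    (hm : Hm (σ * θ) h₁ h₂ ν G₁ G₂ φ₀)
    (hM : ∀ φ ∈ Φ, ∀ γ ∈ Γ, γ d = d → Semi γ φ → ∀ v, φ (ex M v) = ex M (φ v)) :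
    ∃ μ : F, μ ≠ 0 ∧ uᵀ * (G₁ + Mᵀ * G₂ * M.map ⇑(σ * θ)) * u.map ⇑(σ * θ) =
      μ • (G₁ + Mᵀ * G₂ * M.map ⇑(σ * θ)).map r := by
  obtain ⟨p, p1, p2, p3⟩ := hc.cyc
  obtain ⟨_, _, _, p4⟩ := cfg_false hc p1 p2 h.rq
  obtain ⟨_, _, k0⟩ := hm.sim
  obtain ⟨μ, k1, k2⟩ := hq_mul hc.dat h0 k0 p1 p4 (os_comm h (os_s h) (os_r h))
  have k3 : ∀ i, fs6 p false (gx 1 M i) = gx u (M * u) i := fun i => by
    have := hM p p1 r (os_r h) h.rd p2 (pP (Pi.single i 1), 0)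
    rw [ex_gx, p3, map_single', mulVec_single_one, ex_pP0] at this
    exact congrArg Prod.fst this
  refine ⟨μ, k1, Matrix.ext fun i j => ?_⟩
  have k4 := k2 (gx 1 M i) (gx 1 M j)
  rw [k3, k3, hm.gram, hm.gram] at k4
  simpa [Matrix.map_mul, Matrix.mul_add, Matrix.add_mul, Matrix.mul_assoc, -Matrix.map_map]
    using k4

theorem gram_θ (h : OSet Γ r σ θ d q e u) (hc : Cfg Γ r q u Φ) (hS : Std Γ d h₁ h₂ Φ)
    (h0 : φ₀ ∈ Φ) (hm : Hm (σ * θ) h₁ h₂ ν G₁ G₂ φ₀)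
    (hM : ∀ φ ∈ Φ, ∀ γ ∈ Γ, γ d = d → Semi γ φ → ∀ v, φ (ex M v) = ex M (φ v)) :
    ∃ (P Q : M3 F) (μ : F), μ ≠ 0 ∧ Q.det ≠ 0 ∧
      G₁ * P.map ⇑(σ * θ) + Mᵀ * G₂ * Q.map ⇑(σ * θ) = 0 ∧
      Pᵀ * G₁ * P.map ⇑(σ * θ) + Qᵀ * G₂ * Q.map ⇑(σ * θ) =
        μ • (G₁ + Mᵀ * G₂ * M.map ⇑(σ * θ)).map θ := by
  obtain ⟨τ, t1, t2⟩ := hc.dat.ov.onto θ (os_θ h)
  obtain ⟨_, _, _, t3⟩ := cfg_false hc t1 t2 h.θq
  obtain ⟨b, c, l, t4, -⟩ := tnf_of_act nfStmt t3 ((hS.lv3 hc.dat).2 τ t1 _ t2 h.θd)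
    (hS.anti τ t1 _ t2 h.θd) hS.det
  obtain ⟨_, _, k0⟩ := hm.sim
  obtain ⟨μ, k1, k2⟩ := hq_mul hc.dat h0 k0 t1 t3 (os_comm h (os_s h) (os_θ h))
  have k3 : ∀ i, fs6 τ false (gx 1 M i) =
      pQ ((l 2 • c).col i) + pS ((((l 0 * h₁) • b⁻¹ᵀ) * M.map θ).col i) := fun i => by
    have e : (fun j => θ ((1 : M3 F).col i j)) = Pi.single i 1 := by
      ext j
      simp [Matrix.one_apply, Pi.single_apply, apply_ite θ]
    have := tnf_app t4 t2 ((1 : M3 F).col i) (M.col i)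
    rw [e, mulVec_single_one] at this
    exact congrArg Prod.fst this
  have k4 : ∀ x y, hq φ₀ x (sl1 (single 0 1 1) y) = h₁ * hq φ₀ (sl1 (single 1 0 1) x) y := by
    intro x y
    have l1 := hS.anti φ₀ h0 _ k0.semi (os_sd h) (single 0 1 1) (y, 0)
    have l2 : diagonal ![1, h₁, h₂] * -((single 0 1 1 : M3 F).map ⇑(σ * θ))ᵀ =
        (-h₁) • single 1 0 1 * diagonal ![1, h₁, h₂] := by
      ext i j
      fin_cases i <;> fin_cases j <;> simp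
    rw [if_pos rfl, l2, Matrix.mul_assoc, m3_mul_inv hS.det, Matrix.mul_one, slA_eq, map_zero,
      slA_smul] at l1
    rw [hq, l1, hq, Prod.smul_snd, tf_smul_right, slA_eq]
    linear_combination (-h₁) * tf_sl1 (single 1 0 1) x (φ₀ (y, 0)).2
  have k5 : ∀ i, sl1 (single 0 1 1) (fs6 τ false (gx 1 M i)) =
      gx (((l 0 * h₁) • b⁻¹ᵀ) * M.map θ) (-(l 2 • c)) i := fun i => by
    rw [k3, e01_app]
    rfl
  refine ⟨((l 0 * h₁) • b⁻¹ᵀ) * M.map θ, -(l 2 • c), h₁ * μ, mul_ne_zero hS.n1 k1,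
    by simp [det_neg, t4.ne, t4.dc], Matrix.ext fun i j => ?_, Matrix.ext fun i j => ?_⟩
  · have l0 : (σ * θ * θ) d = d := by rw [mul_assoc, h.θ2, mul_one, h.σd]
    obtain ⟨ζ, l1⟩ := cm_pP (φ := φ₀ * τ) (k0.comp t3) ((hS.lv3 hc.dat).1 _ (mul_mem h0 t1) _
      (k0.semi.mul t2) l0) (Pi.single j 1)
    have l2 := hM _ (mul_mem h0 t1) _ (mul_mem (os_s h) (os_θ h)) l0 (k0.semi.mul t2)
      (pP (Pi.single j 1), 0)
    rw [l1, ex_pP, ex_gx, Perm.mul_apply, t3.inl] at l2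
    have l3 := hm.gram 1 M (((l 0 * h₁) • b⁻¹ᵀ) * M.map θ) (-(l 2 • c)) i j
    rw [← k5, k4, hq, l2, gx, e10_app, tf_comm, transpose_one, Matrix.one_mul] at l3
    rw [← l3]
    simp [inj, tf_PR, tE, dotProduct, mulVec, Fin.sum_univ_three, Matrix.one_apply]
    right
    fin_cases i <;> simp <;> ring
  · rw [← hm.gram, ← k5 j, k4, gx, e10_app]
    have l1 := k2 (gx 1 M i) (gx 1 M j)
    rw [k3 i, hm.gram, transpose_one, Matrix.one_mul, Matrix.map_one _ (map_zero _) (map_one _),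
      Matrix.mul_one] at l1
    rw [Matrix.smul_apply, map_apply, smul_eq_mul, mul_assoc, ← l1]
    congr 4
    exact neg_neg _

theorem def_all (h : OSet Γ r σ θ d q e u) (hw : ∀ x, w ((σ * θ) x) = star (w x))
    (h1 : G.map ⇑(σ * θ) = Gᵀ) {μ : F} (h2 : μ ≠ 0)
    (h3 : uᵀ * G * u.map ⇑(σ * θ) = μ • G.map r) (h4 : Def w G ↔ Def w (G.map θ)) (hγ : γ ∈ Γ) :
    Def w (G.map γ) ↔ Def w G := by
  have k1 : ∀ γ : Gl F, Def w (G.map ⇑(γ * (σ * θ))) ↔ Def w (G.map γ) := fun γ => by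
    rw [map_mul_gl, h1, transpose_map, def_tr]
  have k2 : ∀ γ ∈ Γ, Def w (G.map ⇑(γ * r)) ↔ Def w (G.map γ) := fun γ hγ => by
    have l1 := congrArg (fun X : M3 F => X.map γ) h3
    simp only [Matrix.map_mul] at l1
    rw [← map_mul_gl γ, os_comm h hγ (os_s h), map_mul_gl, transpose_map,
      Matrix.map_smulₛₗ _ (γ : F →+* F) _ (map_mul γ μ)] at l1
    rw [← def_cong (G := G.map γ) hw (det_map_ne (os_u h) γ), l1,
      def_smul ((_root_.map_ne_zero _).2 h2)]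
    rfl
  have k3 : ∀ γ ∈ Γ, ∀ i : ℕ, Def w (G.map ⇑(γ * r ^ i)) ↔ Def w (G.map γ) := fun γ hγ i => by
    induction i with
    | zero => rw [pow_zero, mul_one]
    | succ i ih => rw [pow_succ, ← mul_assoc, k2 _ (mul_mem hγ (pow_mem (os_r h) i)), ih]
  have k4 : ∀ i : ℕ, Def w (G.map ⇑(r ^ i)) ↔ Def w G := fun i => by
    have := k3 1 (one_mem _) i
    rwa [one_mul] at this
  have k5 : ∀ i : ℕ, Def w (G.map ⇑(r ^ i * θ)) ↔ Def w G := fun i => by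
    rw [os_comm h (pow_mem (os_r h) i) (os_θ h), k3 θ (os_θ h), h4]
  obtain ⟨i, rfl | rfl | rfl | rfl⟩ := os_form h hγ
  · exact k4 i
  · rw [← k5 i, ← k1 (r ^ i * σ), mul_assoc, ← mul_assoc σ, h.σ2, one_mul]
  · exact k5 i
  · rw [k1, k4]

theorem gram_tr {ψ φ : Perm (W1 F)} (hψ : ψ ∈ S6 (1 : Fˣ) 1 1)
    (h : ∀ β, ψ (pP β, 0) = ex M (pP β, 0)) (i j : Fin 3) :
    gramP φ i j = hq (ψ.permCongr φ) (gx 1 M i) (gx 1 M j) := by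
  have hs := sim6_one.2 (mem_S6.1 hψ)
  have k1 : fs6 ψ false (pP (Pi.single i 1)) = gx 1 M i :=
    congrArg Prod.fst ((h _).trans (ex_gx M i))
  rw [hq, ← ex_gx, ← h, congr_apply, hs.apply, ← k1, hs.pr.tf, one_mul]
  rfl

theorem lv3_of (hΦ : Dat6 Γ Φ) (h1 : GrOn Φ (fun γ => γ ∈ Γ ∧ γ d = d) false)
    (h2 : GrOn Φ (fun γ => γ ∈ Γ ∧ γ d = -d) true) : Lv3 Φ d :=
  ⟨fun φ hφ γ k1 k2 => h1 φ hφ γ k1 ⟨hΦ.ov.mem hφ k1, k2⟩,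
    fun φ hφ γ k1 k2 => h2 φ hφ γ k1 ⟨hΦ.ov.mem hφ k1, k2⟩⟩

/-- The move to the graph of a matrix. -/
theorem move_M (h : OSet Γ r σ θ d q e u) (hc : Cfg Γ r q u Φ) (hS : Std Γ d h₁ h₂ Φ)
    (h0 : φ₀ ∈ Φ) (hm : Hm (σ * θ) h₁ h₂ ν G₁ G₂ φ₀)
    (hM : ∀ φ ∈ Φ, ∀ γ ∈ Γ, γ d = d → Semi γ φ → ∀ v, φ (ex M v) = ex M (φ v))
    (hG : (G₁ + Mᵀ * G₂ * M.map ⇑(σ * θ)).det ≠ 0) :
    ∃ ψ ∈ S6 (1 : Fˣ) 1 1, (∀ β, ψ (pP β, 0) = ex M (pP β, 0)) ∧ Cfg Γ r q u (tr ψ Φ) ∧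
      Lv3 (tr ψ Φ) d := by
  obtain ⟨_, _, k0⟩ := hm.sim
  obtain ⟨ψ, k1, k2, k3, k4⟩ := move (Γ' := Γ) grStmt hc.dat
    (fun φ hφ γ l1 l2 => (hS.lv3 hc.dat).1 φ hφ γ l1 l2.2) h0 (os_s h) (os_sd h) k0 (ex_mem M) hM
    (by
      convert hG using 2
      ext i j
      rw [of_apply, ex_gx, ex_gx]
      simpa [hq] using hm.gram 1 M 1 M i j)
  have k5 := cfg_tr hc (mem_S6.1 k1) fun p p1 p2 p3 β => by
    rw [k2, k2, hM p p1 r (os_r h) h.rd p2, p3]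
  exact ⟨ψ, k1, k2, k5, lv3_of k5.dat k3 k4⟩

theorem Hm.pos (hm : Hm s h₁ h₂ ν G₁ G₂ φ₀) (hS : Std Γ d h₁ h₂ Φ) (hs : s ∈ Γ)
    (hw : ∀ x, w (s x) = star (w x)) : (G₁.map w).IsHermitian ∧ (G₂.map w).IsHermitian ∧
      0 < ((G₁.map w).det * (G₂.map w).det).re ∧ w ν = (w ν).re ∧ (w ν).re ≠ 0 := by
  have k1 : (G₁.map w).IsHermitian := herm_map fun i j => by rw [hm.her1, hw]
  have k2 := rl_of hs hw
  have k3 : s ν = ν := by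
    have l1 := m3_det_map s G₁
    rw [show G₁.map s = G₁ᵀ from Matrix.ext fun i j => (hm.her1 i j).symm, det_transpose, hm.d1,
      map_mul, (hS.f1.mul hS.f2) s hs] at l1
    exact (mul_right_cancel₀ (mul_ne_zero hS.n1 hS.n2) l1).symm
  have k4 : w ν = (w ν).re := (Complex.conj_eq_iff_re.1 (by simpa [k3] using (hw ν).symm)).symm
  have k5 : (w ν).re ≠ 0 := fun k5 =>
    hm.ne (w.injective (by rw [k4, k5, map_zero, Complex.ofReal_zero]))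
  refine ⟨k1, herm_map fun i j => by rw [hm.her2, hw], ?_, k4, k5⟩
  rw [m3_det_map, m3_det_map, ← map_mul, hm.d2, map_mul, map_pow, map_pow, k4, k2.eq hS.f1]
  norm_cast
  exact mul_pos (sq_pos_of_ne_zero k5) (pow_pos (hS.pos w k2) 3)

theorem map_G (hw : ∀ x, w (s x) = star (w x)) (G₁ G₂ P Q P' Q' : M3 F) :
    (Pᵀ * G₁ * P'.map s + Qᵀ * G₂ * Q'.map s).map w =
      (P.map w)ᵀ * G₁.map w * (P'.map w).map star +
        (Q.map w)ᵀ * G₂.map w * (Q'.map w).map star := by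
  simp only [Matrix.map_add _ (map_add w), Matrix.map_mul, map_cj hw, transpose_map]

theorem map_G' (hw : ∀ x, w (s x) = star (w x)) (G₁ G₂ Q : M3 F) :
    (G₁ + Qᵀ * G₂ * Q.map s).map w = G₁.map w + (Q.map w)ᵀ * G₂.map w * (Q.map w).map star := by
  simp only [Matrix.map_add _ (map_add w), Matrix.map_mul, map_cj hw, transpose_map]

theorem type_of (h : OSet Γ r σ θ d q e u) (hs : s ∈ Γ) (hw : ∀ x, w (s x) = star (w x))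
    {w' : F →+* ℂ} (h1 : ∀ x, Fx Γ x → w' x = w x) : ∀ x, w' (s x) = star (w' x) := fun x => by
  obtain ⟨γ, k1, k2⟩ := exists_gal fun x hx => (h1 x hx).symm
  rw [k2, k2, ← hw, ← AlgEquiv.mul_apply, os_comm h k1 hs, AlgEquiv.mul_apply]

theorem match_std (h : OSet Γ r σ θ d q e u) (hc : Cfg Γ r q u Φ) (hS : Std Γ d h₁ h₂ Φ)
    (hw : ∃ w : F →+* ℂ, ∀ x, w ((σ * θ) x) = star (w x)) :
    ∃ ψ ∈ S6 (1 : Fˣ) 1 1, Cfg Γ r q u (tr ψ Φ) ∧ Lv3 (tr ψ Φ) d ∧ Matched (tr ψ Φ) σ θ := by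
  obtain ⟨φ₀, h0, ν, G₁, G₂, hm⟩ := exists_hm h hc hS
  obtain ⟨n, N, n1, n2⟩ := exists_fam hc.dat hS
  have k : ∀ w : F →+* ℂ, ∃ O : Set RM.MC, IsOpen O ∧ O.Nonempty ∧
      ((∀ x, w ((σ * θ) x) = star (w x)) → ∀ M ∈ O,
        (G₁.map w + Mᵀ * G₂.map w * M.map star).det ≠ 0 ∧
        ∀ P Q : RM.MC, G₁.map w * P.map star + Mᵀ * G₂.map w * Q.map star = 0 →
          Q.det ≠ 0 → (Def id (G₁.map w + Mᵀ * G₂.map w * M.map star) ↔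
            Def id (Pᵀ * G₁.map w * P.map star + Qᵀ * G₂.map w * Q.map star))) := fun w => by
    by_cases hw : ∀ x, w ((σ * θ) x) = star (w x)
    · obtain ⟨k1, k2, k3, -⟩ := hm.pos hS (os_s h) hw
      obtain ⟨O, k4, k5, k6⟩ := RM.rm _ _ k1 k2 k3
      exact ⟨O, k4, k5, fun _ => k6⟩
    · exact ⟨Set.univ, isOpen_univ, Set.univ_nonempty, fun k => absurd k hw⟩
  choose O o1 o2 o3 using k
  obtain ⟨t, t1, t2⟩ := exists_approx h _ fun w _ => open_fam n1 w (o1 w) (o2 w)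
  have hM := n2 t t1
  simp only [Set.mem_ofPred_eq, ← map_fam] at t2
  generalize ∑ i, t i • N i = M at hM t2
  obtain ⟨μ, r1, r2⟩ := gram_r h hc h0 hm hM
  obtain ⟨P, Q, μ', s1, s2, s3, s4⟩ := gram_θ h hc hS h0 hm hM
  have k : ∀ w : F →+* ℂ, (∀ x, w ((σ * θ) x) = star (w x)) →
      (G₁ + Mᵀ * G₂ * M.map ⇑(σ * θ)).det ≠ 0 ∧ (Def w (G₁ + Mᵀ * G₂ * M.map ⇑(σ * θ)) ↔
        Def w ((G₁ + Mᵀ * G₂ * M.map ⇑(σ * θ)).map θ)) := fun w hw => by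
    obtain ⟨w₀, -, k2, k3⟩ := t2 w (rl_of (os_s h) hw)
    have k4 := type_of h (os_s h) hw k2
    obtain ⟨k5, k6⟩ := o3 w₀ k4 _ k3
    have k7 := k6 (P.map w₀) (Q.map w₀)
      (by simpa [s3] using (map_G k4 G₁ G₂ 1 M P Q).symm)
      (by rw [m3_det_map]; exact (_root_.map_ne_zero _).2 s2)
    rw [← map_G' k4, ← map_G k4, ← LH.def_id, ← LH.def_id, s4, def_smul s1] at k7
    rw [← map_G' k4, m3_det_map] at k5
    obtain ⟨γ, k8, k9⟩ := exists_gal k2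
    refine ⟨(_root_.map_ne_zero _).1 k5, ?_⟩
    have k10 : ∀ G : M3 F, Def w G ↔ Def w₀ (G.map γ) := fun G => by
      rw [LH.def_id, LH.def_id w₀, show G.map w = (G.map γ).map w₀ from Matrix.ext fun _ _ => k9 _]
    rw [k10, k10, ← map_mul_gl, def_all h k4 (hm.herG M) r1 r2 k7 k8,
      def_all h k4 (hm.herG M) r1 r2 k7 (mul_mem k8 (os_θ h))]
  obtain ⟨w, hw⟩ := hw
  obtain ⟨ψ, k1, k2, k3, k4⟩ := move_M h hc hS h0 hm hM (k w hw).1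
  refine ⟨ψ, k1, k3, k4, fun φ hφ k5 w hw => ?_⟩
  obtain ⟨_, _, k0⟩ := hm.sim
  obtain ⟨z, k6, k7⟩ := hc.dat.exists_Z6 h0 (mem_tr.1 hφ) k0.semi ((semi_congr (mem_S6.1 k1)).2 k5)
  obtain ⟨c, c', k8⟩ := mem_Z6.1 k6
  have k9 : gramP φ = c' • (G₁ + Mᵀ * G₂ * M.map ⇑(σ * θ)) := Matrix.ext fun i j => by
    rw [gram_tr k1 k2, k7, hq, Perm.mul_apply, k8, tf_smul_right]
    simpa [hq, (ne_of_scal6 k8).2] using hm.gram 1 M 1 M i j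
  rw [k9, def_smul (ne_of_scal6 k8).2, (k w hw).2]
  exact (def_smul (w := w.comp (θ : F →+* F)) (ne_of_scal6 k8).2).symm

/-- (MATCH) -/
theorem matchStmt : MatchStmt := by
  intro F _ _ Γ r σ θ d q e u Φ h hc hL
  by_cases hw : ∃ w : F →+* ℂ, ∀ x, w ((σ * θ) x) = star (w x)
  swap
  · exact ⟨Φ, ⟨1, 1, 1, 1, sim6_id, rfl⟩, hc, hL, fun _ _ _ w k => absurd ⟨w, k⟩ hw⟩
  obtain ⟨ψ, T, h₁, h₂, ⟨_, _, _, k1⟩, -, -, k2, k3⟩ := exists_std h hc hL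
  obtain ⟨ψ', k4, k5⟩ := match_std h k2 k3 hw
  exact ⟨_, ⟨ψ * ψ', _, _, _, ((sim6_one.2 k1).comp (sim6_one.2 (mem_S6.1 k4))).cast (γ' := 1)
    (mul_one _) rfl rfl rfl rfl, rfl⟩, k5⟩

end Vale.Agent.P011N.Cl.MV
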