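import Vale.Agent.P011N.Cl.MV.Move
import Vale.Agent.P011N.Cl.MV.Pl
import Vale.Agent.P011N.Cl.RM.Her
import Vale.Agent.P011N.Cl.TC.NF

/-!
The diagonal form of the action on the first factor.
-/

namespace Vale.Agent.P011N.Cl.MV

open Vale.Agent.P011.MPQ Vale.Agent.P011.D4 Vale.Agent.P011.D4.Oct Vale.Agent.P011.E6 Equiv Matrix
open Vale.Agent.P011.E6O Vale.Agent.P011.E6.Alb

variable {F : Type} [Field F] [NumberField F] {Γ Γ₀ : Subgroup (Gl F)} {r σ θ s : Gl F}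
  {d q e : F} {u H : M3 F} {w : F →+* ℂ} {Φ : Subgroup (Perm (W1 F))}

/-- The sesquilinear form of a matrix. -/
def hf (s : Gl F) (H : M3 F) (x y : Fin 3 → F) : F := (fun i => s (x i)) ⬝ᵥ H *ᵥ y

theorem hf_eq (x y : Fin 3 → F) : hf s H x y =
    s (x 0) * (H 0 0 * y 0 + H 0 1 * y 1 + H 0 2 * y 2) +
    s (x 1) * (H 1 0 * y 0 + H 1 1 * y 1 + H 1 2 * y 2) +
    s (x 2) * (H 2 0 * y 0 + H 2 1 * y 1 + H 2 2 * y 2) := by
  simp only [hf, dotProduct, mulVec, Fin.sum_univ_three]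

theorem hf_symm (hs : ∀ x, s (s x) = x) (hH : ∀ i j, s (H i j) = H j i) (x y : Fin 3 → F) :
    s (hf s H x y) = hf s H y x := by
  simp only [hf_eq, map_add, map_mul, hs, hH]
  ring

theorem hf_fx (hs : ∀ x, Fx Γ₀ x → Fx Γ₀ (s x)) (hH : ∀ i j, Fx Γ₀ (H i j)) {x y : Fin 3 → F}
    (hx : ∀ i, Fx Γ₀ (x i)) (hy : ∀ i, Fx Γ₀ (y i)) : Fx Γ₀ (hf s H x y) := fun γ hγ => by
  simp only [hf_eq, map_add, map_mul, hH _ _ γ hγ, hy _ γ hγ, hs _ (hx _) γ hγ]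

theorem fx_zero : Fx Γ₀ (0 : F) := fun γ _ => map_zero γ

theorem exists_aniso (hd : Fx Γ₀ d) (hs : s d = -d) (h0 : d ≠ 0) (hH : H ≠ 0) :
    ∃ x : Fin 3 → F, (∀ i, Fx Γ₀ (x i)) ∧ hf s H x x ≠ 0 := by
  by_contra hcon
  push Not at hcon
  have k : ∀ i j (t : F), Fx Γ₀ t → H i i + t * H i j + s t * H j i + s t * t * H j j = 0 :=
    fun i j t ht => by
      have h1 := hcon (Pi.single i 1 + Pi.single j t) fun l => by
        simp only [Pi.add_apply, Pi.single_apply]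
        split_ifs
        exacts [fx_one.add ht, fx_one.add fx_zero, fx_zero.add ht, fx_zero.add fx_zero]
      have h2 : (fun l => s ((Pi.single i 1 + Pi.single j t : Fin 3 → F) l)) =
          Pi.single i 1 + Pi.single j (s t) := by
        funext l
        simp only [Pi.add_apply, Pi.single_apply, map_add, apply_ite s, map_one, map_zero]
      rw [hf, h2, mulVec_add, add_dotProduct, single_dotProduct, single_dotProduct] at h1
      simp only [Pi.add_apply, mulVec_single, MulOpposite.smul_eq_mul_unop, Pi.smul_apply,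
        MulOpposite.unop_op, col_apply] at h1
      linear_combination h1
  refine hH (Matrix.ext fun i j => ?_)
  have h1 := k i j 0 fx_zero
  have h2 := k j i 0 fx_zero
  have h3 := k i j 1 fx_one
  have h4 := k i j d hd
  rw [map_zero] at h1 h2
  rw [map_one] at h3
  rw [hs] at h4
  refine mul_left_cancel₀ (mul_ne_zero two_ne_zero h0) ?_
  rw [Matrix.zero_apply]
  linear_combination d * h3 + h4 - (d + 1) * h1 - (d - d * d) * h2

omit [NumberField F] in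
theorem herm_map (hH : ∀ i j, w (H j i) = star (w (H i j))) : (H.map w).IsHermitian :=
  Matrix.ext fun i j => (hH j i).symm

theorem exists_v2 (h : OSet Γ r σ θ d q e u) (h0 : H.det ≠ 0)
    (h1 : ∀ i j, Fx (stb Γ d) (H i j)) (h2 : ∀ i j, θ (H i j) = H j i) :
    ∃ v : Fin 3 → F, (∀ i, Fx (stb Γ d) (v i)) ∧ hf θ H v v ≠ 0 ∧ Fx Γ (hf θ H v v * H.det) ∧
      ∀ w, Rl Γ w → 0 < (w (hf θ H v v * H.det)).re := by
  have k0 : Fx Γ H.det := os_fx h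
    (fun γ hγ => by simp only [det_fin_three, map_add, map_sub, map_mul, h1 _ _ γ hγ])
    (by simp only [det_fin_three, map_add, map_sub, map_mul, h2]; ring)
  have k1 : ∀ v : Fin 3 → F, (∀ i, Fx (stb Γ d) (v i)) → Fx Γ (hf θ H v v * H.det) :=
    fun v hv => (os_fx h (hf_fx (fun _ => os_fxθ h) h1 hv hv) (hf_symm (os_θθ h) h2 v v)).mul k0
  by_cases hw : ∃ w, Rl Γ w
  swap
  · obtain ⟨v, k2, k3⟩ := exists_aniso (Γ₀ := stb Γ d) (H := H) (fun _ hγ => hγ.2) h.θd h.d0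
      (by rintro rfl; exact h0 (by simp))
    exact ⟨v, k2, k3, k1 v k2, fun w k4 => absurd ⟨w, k4⟩ hw⟩
  obtain ⟨v, k2, k3⟩ := exists_approx h
    (fun w => {z | 0 < RM.val (H.map w) z * (w H.det).re}) fun w hw => by
      have k2 : (H.map w).IsHermitian := herm_map fun i j => by rw [← h2, hw.conj h (h1 _ _)]
      refine ⟨isOpen_lt continuous_const (by unfold RM.val; fun_prop), ?_⟩
      have k3 : (w H.det).re ≠ 0 := fun k3 =>
        h0 (w.injective (by rw [hw.eq k0, k3, map_zero, Complex.ofReal_zero]))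
      rcases k3.lt_or_gt with k4 | k4
      · obtain ⟨z, hz⟩ := RM.exists_pos k2.neg (by
          rw [det_neg, m3_det_map, Fintype.card_fin]
          norm_num
          exact k4)
        rw [RM.val_neg] at hz
        exact ⟨z, mul_pos_of_neg_of_neg (neg_pos.1 hz) k4⟩
      · obtain ⟨z, hz⟩ := RM.exists_pos k2 (by rwa [m3_det_map])
        exact ⟨z, mul_pos hz k4⟩
  have k4 : ∀ w, Rl Γ w → 0 < (w (hf θ H v v * H.det)).re := fun w hw => by
    obtain ⟨w₀, k4, k5, k6⟩ := k3 w hw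
    rw [← k5 _ (k1 v k2), map_mul, k4.eq k0, Complex.re_mul_ofReal]
    simpa only [hf_eq, map_add, map_mul, k4.conj h (k2 _), dotProduct, mulVec, Fin.sum_univ_three,
      map_apply, Pi.star_apply, Set.mem_ofPred_eq, RM.val] using k6
  refine ⟨v, k2, fun k5 => ?_, k1 v k2, k4⟩
  obtain ⟨w, hw⟩ := hw
  simpa [k5] using k4 w hw

theorem exists_diag (h : OSet Γ r σ θ d q e u) (h0 : H.det ≠ 0)
    (h1 : ∀ i j, Fx (stb Γ d) (H i j)) (h2 : ∀ i j, θ (H i j) = H j i) :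
    ∃ (T : M3 F) (g : Fin 3 → F), (∀ i j, Fx (stb Γ d) (T i j)) ∧ T.det ≠ 0 ∧
      (T.map θ)ᵀ * H * T = diagonal g ∧ (∀ i, g i ≠ 0 ∧ Fx Γ (g i)) ∧
      ∀ w, Rl Γ w → 0 < (w (g 0 * g 1)).re := by
  have hθ := os_θθ h
  have fθ : ∀ x, Fx (stb Γ d) x → Fx (stb Γ d) (θ x) := fun _ => os_fxθ h
  obtain ⟨v, v1, v2, v3, v4⟩ := exists_v2 h h0 h1 h2
  obtain ⟨x, x1, x2⟩ := exists_aniso (Γ₀ := stb Γ d)
    (H := hf θ H v v • H - vecMulVec (H *ᵥ v) ((fun i => θ (v i)) ᵥ* H)) (fun _ hγ => hγ.2) h.θd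
    h.d0 fun k => by
      have k1 := congrArg det (sub_eq_zero.1 k)
      rw [det_smul, det_vecMulVec] at k1
      exact mul_ne_zero (pow_ne_zero _ v2) h0 k1
  set y : Fin 3 → F := fun i => hf θ H v v * x i - hf θ H v x * v i with hy
  have y1 : ∀ i, Fx (stb Γ d) (y i) := fun i γ hγ => by
    simp only [hy, map_sub, map_mul, hf_fx fθ h1 v1 v1 γ hγ, hf_fx fθ h1 v1 x1 γ hγ, x1 _ γ hγ,
      v1 _ γ hγ]
  have y2 : hf θ H v y = 0 := by
    rw [hf_eq]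
    simp only [hy]
    linear_combination (-hf θ H v v) * hf_eq (s := θ) (H := H) v x +
      hf θ H v x * hf_eq (s := θ) (H := H) v v
  have y3 : hf θ H y v = 0 := by rw [← hf_symm hθ h2, y2, map_zero]
  have y4 : hf θ H y y ≠ 0 := fun k => mul_ne_zero (pow_ne_zero 1 v2) x2 (by
    rw [hf_eq] at k
    simp only [hy, map_sub, map_mul, hf_symm hθ h2] at k
    rw [← k]
    simp only [hf_eq, Matrix.sub_apply, Matrix.smul_apply, vecMulVec_apply, mulVec, vecMul,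
      dotProduct, Fin.sum_univ_three, smul_eq_mul]
    ring)
  set z : Fin 3 → F := ((fun i => θ (y i)) ᵥ* H) ⨯₃ ((fun i => θ (v i)) ᵥ* H) with hz
  have z1 : ∀ i, Fx (stb Γ d) (z i) := fun i γ hγ => by
    fin_cases i <;>
      simp [hz, cross_apply, vecMul, dotProduct, Fin.sum_univ_three, h1 _ _ γ hγ,
        fθ _ (y1 _) γ hγ, fθ _ (v1 _) γ hγ]
  have z2 : hf θ H y z = 0 := by rw [hf, dotProduct_mulVec, hz, dot_self_cross]
  have z3 : hf θ H v z = 0 := by rw [hf, dotProduct_mulVec, hz, dot_cross_self]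
  have z4 : hf θ H z y = 0 := by rw [← hf_symm hθ h2, z2, map_zero]
  have z5 : hf θ H z v = 0 := by rw [← hf_symm hθ h2, z3, map_zero]
  clear_value y
  have t1 : (of ![y, z, v])ᵀ.det = -(hf θ H y y * hf θ H v v) := by
    rw [← sub_zero (hf θ H y y * _), ← zero_mul (hf θ H v y), ← y3]
    simp [det_fin_three, hz, cross_apply, vecMul, dotProduct, Fin.sum_univ_three, hf_eq]
    ring
  clear_value z
  have t2 : ((of ![y, z, v])ᵀ.map θ)ᵀ * H * (of ![y, z, v])ᵀ =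
      diagonal ![hf θ H y y, hf θ H z z, hf θ H v v] := by
    have k : ∀ i j, (((of ![y, z, v])ᵀ.map θ)ᵀ * H * (of ![y, z, v])ᵀ) i j =
        hf θ H (![y, z, v] i) (![y, z, v] j) := fun i j => by
      simp only [Matrix.mul_apply, Fin.sum_univ_three, hf_eq, transpose_apply, map_apply, of_apply]
      ring
    ext i j
    rw [k]
    fin_cases i <;> fin_cases j <;> simp [y2, y3, z2, z3, z4, z5]
  have t3 := congrArg det t2
  have t4 : (of ![y, z, v])ᵀ.det ≠ 0 := by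
    rw [t1]
    exact neg_ne_zero.2 (mul_ne_zero y4 v2)
  rw [det_mul, det_mul, det_transpose, m3_det_map, det_diagonal, Fin.prod_univ_three] at t3
  simp only [cons_val] at t3
  have f1 := os_fx h (hf_fx fθ h1 y1 y1) (hf_symm hθ h2 y y)
  have f2 := os_fx h (hf_fx fθ h1 z1 z1) (hf_symm hθ h2 z z)
  have f3 := os_fx h (hf_fx fθ h1 v1 v1) (hf_symm hθ h2 v v)
  have z6 : hf θ H z z ≠ 0 := fun k => by
    rw [k, mul_zero, zero_mul] at t3
    exact mul_ne_zero (mul_ne_zero ((_root_.map_ne_zero θ).2 t4) h0) t4 t3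
  refine ⟨_, _, fun i j => ?_, t4, t2, fun i => ?_, fun w hw => ?_⟩
  · fin_cases j
    exacts [y1 i, z1 i, v1 i]
  · fin_cases i
    exacts [⟨y4, f1⟩, ⟨z6, f2⟩, ⟨v2, f3⟩]
  · have k1 : hf θ H y y * hf θ H z z = hf θ H v v * H.det * (hf θ H y y * hf θ H y y) := by
      rw [t1, map_neg, map_mul, f1 θ (os_θ h), f3 θ (os_θ h)] at t3
      refine mul_right_cancel₀ v2 ?_
      linear_combination -t3
    have k2 : (w (hf θ H y y)).re ≠ 0 := fun k2 =>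
      y4 (w.injective (by rw [hw.eq f1, k2, map_zero, Complex.ofReal_zero]))
    simp only [cons_val]
    rw [k1, map_mul, map_mul w (hf θ H y y), hw.eq f1, ← Complex.ofReal_mul, Complex.re_mul_ofReal]
    exact mul_pos (v4 w hw) (mul_self_pos.2 k2)

/-- The matrix of the elements which reverse the grading. -/
theorem exists_anti (h : OSet Γ r σ θ d q e u) (hΦ : Dat6 Γ Φ) (ht : Triv Φ (stb Γ d))
    (hG : GrOn Φ (fun γ => γ d = -d) true) : ∃ a : M3 F, a.det ≠ 0 ∧ a 0 0 = 1 ∧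
      a * hz = hz * a ∧ (∀ φ ∈ Φ, ∀ γ : Gl F, Semi γ φ → γ d = -d → ActA γ true a φ) ∧
      (∀ i j, Fx (stb Γ d) (a i j)) ∧ ∀ i j, θ (a i j) = a j i := by
  obtain ⟨φ₀, k1, k2⟩ := hΦ.ov.onto θ (os_θ h)
  obtain ⟨ε, _, _, _, k3⟩ := hΦ.sim_of k1 k2
  obtain ⟨a, a1, a2, a3, a4⟩ := exists_act nfStmt k3 (hG φ₀ k1 θ k2 h.θd)
  have a5 : ∀ φ ∈ Φ, ∀ γ : Gl F, Semi γ φ → γ d = -d → ActA γ true a φ := fun φ hφ γ l1 l2 => by
    have l3 := a4.mul_true (ht (φ₀⁻¹ * φ) (mul_mem (inv_mem k1) hφ) (θ⁻¹ * γ)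
      (mem_stb.2 ⟨mul_mem (inv_mem (os_θ h)) (hΦ.ov.mem hφ l1), by
        rw [AlgEquiv.mul_apply, l2, map_neg, inv_neg h.θd, neg_neg]⟩) (k2.inv.mul l1)) (by simp)
    rwa [mul_inv_cancel_left, mul_inv_cancel_left, Matrix.map_one _ (map_zero θ) (map_one θ),
      inv_one, transpose_one, Matrix.mul_one] at l3
  refine ⟨a, a1, a2, a3, a5, fun i j γ hγ => ?_, fun i j => ?_⟩
  · obtain ⟨φ, l1, l2⟩ := hΦ.ov.onto γ hγ.1
    have l3 := (a5 _ (mul_mem l1 k1) _ (l2.mul k2) (by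
      rw [AlgEquiv.mul_apply, h.θd, map_neg, (mem_stb.1 hγ).2])).unique' ((ht φ l1 γ hγ l2).mul_false a4 a1) a1
      (by rw [Matrix.one_mul]; exact det_map_ne a1 γ) a2 (by simp [a2])
    rw [Matrix.one_mul] at l3
    exact congrFun (congrFun l3 i) j
  · have l1 := det_map_ne a1 θ
    have l0 : ActA (⇑(θ * θ)) false (a * (a.map θ)⁻¹ᵀ) ⇑(φ₀ * φ₀) := (a4.mul_true a4 a1 :)
    obtain ⟨t, -, l2⟩ := (ht _ (mul_mem k1 k1) (θ * θ) (by rw [h.θ2]; exact one_mem _)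
      (k2.mul k2)).unique l0 (by simp) (by simp [a1, l1])
    have l3 : a = t • (a.map θ)ᵀ := by
      rw [← Matrix.one_mul (a.map θ)ᵀ, ← Matrix.smul_mul, ← l2, Matrix.mul_assoc, ← transpose_mul,
        m3_mul_inv l1, transpose_one, Matrix.mul_one]
    have l4 := congrFun (congrFun l3 0) 0
    have l5 := congrFun (congrFun l3 j) i
    simp only [Matrix.smul_apply, transpose_apply, map_apply, a2, map_one, smul_eq_mul,
      mul_one] at l4 l5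
    rw [l5, ← l4, one_mul]

/-- The diagonal form. -/
structure Std (Γ : Subgroup (Gl F)) (d h₁ h₂ : F) (Φ : Subgroup (Perm (W1 F))) : Prop where
  triv : Triv Φ (stb Γ d)
  anti : ∀ φ ∈ Φ, ∀ γ : Gl F, Semi γ φ → γ d = -d → ActA γ true (diagonal ![1, h₁, h₂]) φ
  f1 : Fx Γ h₁
  f2 : Fx Γ h₂
  n1 : h₁ ≠ 0
  n2 : h₂ ≠ 0
  pos : ∀ w, Rl Γ w → 0 < (w h₁).re

omit [NumberField F] in
theorem tr_mul (ψ ψ' : Perm (W1 F)) (Φ : Subgroup (Perm (W1 F))) :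
    tr (ψ * ψ') Φ = tr ψ' (tr ψ Φ) := rfl

theorem lv3_stb (h : Lv3 Φ d) : GrOn Φ (fun γ => γ ∈ stb Γ d) false :=
  fun φ hφ γ h1 h2 => h.1 φ hφ γ h1 h2.2

theorem Std.det {h₁ h₂ : F} (h : Std Γ d h₁ h₂ Φ) : (diagonal ![1, h₁, h₂] : M3 F).det ≠ 0 := by
  simp [Fin.prod_univ_three, h.n1, h.n2]

theorem Std.lv3 {h₁ h₂ : F} (h : Std Γ d h₁ h₂ Φ) (hΦ : Dat6 Γ Φ) : Lv3 Φ d :=
  ⟨fun φ hφ γ h1 h2 => (h.triv φ hφ γ ⟨hΦ.ov.mem hφ h1, h2⟩ h1).cm (by simp) (by simp),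
    fun φ hφ γ h1 h2 => (h.anti φ hφ γ h1 h2).cm h.det (by apply comm_hz <;> simp)⟩

/-- (N0, N1) -/
theorem exists_std (h : OSet Γ r σ θ d q e u) (hc : Cfg Γ r q u Φ) (hL : Lv3 Φ d) :
    ∃ (ψ : Perm (W1 F)) (T : M3 F) (h₁ h₂ : F), (∃ ν₁ ν₂ l, Sim6 id false ν₁ ν₂ l ψ) ∧
      T.det ≠ 0 ∧ ActA id false T ψ ∧ Cfg Γ r q u (tr ψ Φ) ∧ Std Γ d h₁ h₂ (tr ψ Φ) := by
  obtain ⟨T₀, ψ₀, k1, -, -, k2, k3, k4⟩ := n0 nfStmt hc.dat stb_le (lv3_stb hL)
  obtain ⟨_, _, _, s0⟩ := k1.sim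
  have c0 := cfg_tr hc s0 fun p _ _ hp β => by rw [k3, k3, hp]
  obtain ⟨a, a1, -, -, a4, a5, a6⟩ := exists_anti h c0.dat k4 (grOn_tr s0 k2 hL.2)
  have a7 : ∀ γ : Gl F, ∀ i j, γ (a⁻¹ i j) = (a.map γ)⁻¹ i j := fun γ i j => by
    rw [← m3_map_inv γ a1, map_apply]
  obtain ⟨T, g, t1, t2, t3, t4, t5⟩ := exists_diag h (H := a⁻¹) (by simp [a1])
    (fun i j γ hγ => by rw [a7, show a.map γ = a from Matrix.ext fun i j => a5 i j γ hγ])
    (fun i j => by rw [a7, show a.map θ = aᵀ from Matrix.ext a6, inv_tr, transpose_apply])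
  obtain ⟨ψ₁, l1⟩ := exists_chA t2
  obtain ⟨_, _, _, s1⟩ := l1.sim
  have t6 : ∀ γ ∈ stb Γ d, T.map γ = T := fun γ hγ => Matrix.ext fun i j => t1 i j γ hγ
  refine ⟨ψ₀ * ψ₁, T₀ * T, g 0 / g 1, g 0 / g 2,
    ⟨_, _, _, ((sim6_one.2 s0).comp (sim6_one.2 s1)).cast (γ' := 1) (mul_one _) rfl rfl rfl rfl⟩,
    by simp [k1.det, t2], k1.mul l1, ?_, ?_⟩ <;> rw [tr_mul]
  · refine cfg_tr c0 s1 fun p p1 p2 p3 β => ?_
    rw [l1.pp, l1.pp, (k4 p p1 r ⟨os_r h, h.rd⟩ p2).one, t6 r ⟨os_r h, h.rd⟩, p3]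
  refine ⟨fun φ hφ γ hγ l2 => ?_, fun φ hφ γ l2 l3 => ?_,
    div_eq_mul_inv (g 0) (g 1) ▸ (t4 0).2.mul (t4 1).2.inv,
    div_eq_mul_inv (g 0) (g 2) ▸ (t4 0).2.mul (t4 2).2.inv, div_ne_zero (t4 0).1 (t4 1).1,
    div_ne_zero (t4 0).1 (t4 2).1, fun w hw => ?_⟩
  · have l3 := ActA.tr l1.act t2 (k4 _ hφ γ hγ ((semi_congr s1).2 l2))
    rwa [if_neg Bool.false_ne_true, t6 γ hγ, Matrix.mul_one, m3_inv_mul t2] at l3
  · have l4 := (semi_congr s1).2 l2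
    have l5 := ActA.tr l1.act t2 (a4 _ hφ γ l4 l3)
    have l6 : T.map γ = T.map θ := Matrix.ext fun i j =>
      os_act h (c0.dat.ov.mem hφ l4) l3 (t1 i j)
    have l7 : T⁻¹ * a * (T.map θ)⁻¹ᵀ = diagonal fun i => (g i)⁻¹ := by
      rw [← m3_inv_inv a1, ← inv_tr, Matrix.mul_assoc, ← Matrix.mul_inv_rev, ← Matrix.mul_inv_rev,
        t3]
      refine Matrix.inv_eq_left_inv ?_
      simp [fun i => inv_mul_cancel₀ (t4 i).1]
    rw [if_pos rfl, l6, l7] at l5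
    convert l5.smul (by simp [Fin.prod_univ_three, fun i => (t4 i).1]) (t4 0).1 using 1
    ext i j
    fin_cases i <;> fin_cases j <;> simp [(t4 0).1, div_eq_mul_inv]
  · have l2 : (w (g 1)).re ≠ 0 := fun k2 =>
      (t4 1).1 (w.injective (by rw [hw.eq (t4 1).2, k2, map_zero, Complex.ofReal_zero]))
    have l3 := t5 w hw
    rw [map_mul, hw.eq (t4 1).2, Complex.re_mul_ofReal] at l3
    rw [map_div₀, hw.eq (t4 1).2, Complex.div_ofReal_re]
    exact div_pos_iff.2 (mul_pos_iff.1 l3)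

end Vale.Agent.P011N.Cl.MV
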